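import Vale.Agent.P366R.Glim
import Vale.Agent.P366W.Aff2
import Vale.Agent.P366W.Dens

/-!
# P366R: limits at the points of small density
-/

open MeasureTheory Metric Filter Topology Set
open scoped ContDiff ENNReal RealInnerProductSpace
open Vale.Agent.P366.Stmt Vale.Agent.P366Y Vale.Agent.P366W Vale.Agent.P366Z

noncomputable section

namespace Vale.Agent.P366R

variable {N m : ℕ} {ι : Type}

theorem ho_aff {V : Type} [NormedAddCommGroup V] [NormedSpace ℝ V] {α A l : ℝ} {f : E m → V}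
    (h : Ho α A f) (hl : 0 < l) (k : ℝ) (d : E m) :
    Ho α (|k| * A * (1 + l⁻¹ ^ α)) fun y => k • f (l⁻¹ • (y - d)) := by
  have A0 : 0 ≤ A := (norm_nonneg _).trans (h.1 0)
  have l0 : 0 ≤ l⁻¹ ^ α := by positivity
  refine ⟨fun x => ?_, fun x y => ?_⟩
  · rw [norm_smul, Real.norm_eq_abs]
    exact (mul_le_mul_of_nonneg_left (h.1 _) (abs_nonneg k)).trans
      (le_mul_of_one_le_right (by positivity) (by linarith))
  · rw [← smul_sub, norm_smul, Real.norm_eq_abs]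
    refine (mul_le_mul_of_nonneg_left (h.2 _ _) (abs_nonneg k)).trans ?_
    rw [← smul_sub, sub_sub_sub_cancel_right, norm_smul, Real.norm_of_nonneg (by positivity),
      Real.mul_rpow (by positivity) (norm_nonneg _)]
    have : 0 ≤ |k| * A * ‖x - y‖ ^ α := by positivity
    nlinarith

theorem ho_mono {V : Type} [NormedAddCommGroup V] {α A A' : ℝ} {f : E m → V} (h : Ho α A f)
    (hA : A ≤ A') : Ho α A' f :=
  ⟨fun x => (h.1 x).trans hA, fun x y => (h.2 x y).trans (by gcongr)⟩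

theorem fderiv_aff {f : E m → ℝ} (hf : Differentiable ℝ f) (k l s : ℝ) (d y : E m) :
    HasFDerivAt (fun y => s + k * f (l • (y - d))) ((k * l) • fderiv ℝ f (l • (y - d))) y := by
  have h1 : HasFDerivAt (fun y : E m => l • (y - d)) (l • ContinuousLinearMap.id ℝ (E m)) y :=
    ((hasFDerivAt_id y).sub_const d).const_smul l
  refine ((((hf _).hasFDerivAt.comp y h1).const_mul k).const_add s).congr_fderiv ?_
  ext v
  simp [mul_assoc]

theorem c2h_aff {α A l : ℝ} (hl : 0 < l) : ∃ A' : ℝ, ∀ (w : E m → ℝ) (d : E m) (s : ℝ),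
    C2H α A w → |s| ≤ 1 → C2H α A' fun y => s + l * w (l⁻¹ • (y - d)) := by
  refine ⟨1 + (l + 1 + l⁻¹) * A * (1 + l⁻¹ ^ α), fun w d s hw hs => ?_⟩
  have A0 : 0 ≤ A := (norm_nonneg _).trans (hw.2.1.1 0)
  have l0 : 0 ≤ l⁻¹ ^ α := by positivity
  have l1 := inv_pos.2 hl
  have e1 : ∀ j, pd j (fun y => s + l * w (l⁻¹ • (y - d)))
      = fun y => 0 + 1 * pd j w (l⁻¹ • (y - d)) := fun j => funext fun y => by
    rw [pd_of_hasFDerivAt (fderiv_aff (hw.1.differentiable two_ne_zero) l l⁻¹ s d y),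
      pd_eq (hw.1.differentiable two_ne_zero _)]
    simp [hl.ne']
  have e2 : D1 (fun y => s + l * w (l⁻¹ • (y - d)))
      = fun y => (1 : ℝ) • D1 w (l⁻¹ • (y - d)) := funext fun y => funext fun j => by
    simp [D1, e1]
  have e3 : D2 (fun y => s + l * w (l⁻¹ • (y - d)))
      = fun y => l⁻¹ • D2 w (l⁻¹ • (y - d)) := funext fun y => funext fun i => funext fun j => by
    have hd : Differentiable ℝ (pd j w) := fun x => diffAt_pd hw.1.contDiffAt j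
    rw [D2, e1, pd_of_hasFDerivAt (fderiv_aff hd 1 l⁻¹ 0 d y)]
    simp [D2, pd_eq (hd _)]
  refine ⟨contDiff_const.add (contDiff_const.mul (hw.1.comp
    ((contDiff_id.sub contDiff_const).const_smul _))), ?_, ?_, ?_⟩
  · have := ho_aff hw.2.1 hl l d
    rw [abs_of_pos hl] at this
    have h2 : l * A * (1 + l⁻¹ ^ α) ≤ (l + 1 + l⁻¹) * A * (1 + l⁻¹ ^ α) := by gcongr; linarith
    refine ⟨fun x => (norm_add_le _ _).trans (add_le_add hs ((this.1 x).trans h2)), fun x y => ?_⟩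
    rw [add_sub_add_left_eq_sub]
    exact (this.2 x y).trans (by gcongr; linarith)
  · rw [e2]
    refine ho_mono (ho_aff hw.2.2.1 hl 1 d) ?_
    have : |(1 : ℝ)| * A * (1 + l⁻¹ ^ α) ≤ (l + 1 + l⁻¹) * A * (1 + l⁻¹ ^ α) := by
      gcongr; rw [abs_one]; linarith
    linarith
  · rw [e3]
    refine ho_mono (ho_aff hw.2.2.2 hl l⁻¹ d) ?_
    have : |l⁻¹| * A * (1 + l⁻¹ ^ α) ≤ (l + 1 + l⁻¹) * A * (1 + l⁻¹ ^ α) := by
      gcongr; rw [abs_of_pos l1]; linarith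
    linarith

/-- either the sets stay away from `p`, or they approach it -/
theorem app_or {X : Type} [PseudoMetricSpace X] [ProperSpace X] (𝒰 : Ultrafilter ι)
    {G : ι → Set X} (hG : ∀ᶠ i in (𝒰 : Filter ι), IsClosed (G i)) (p : X) :
    (∃ r > (0 : ℝ), ∀ᶠ i in (𝒰 : Filter ι), ∀ x ∈ ball p r, x ∉ G i) ∨
      ∃ x : ι → X, Tendsto x 𝒰 (𝓝 p) ∧ ∀ᶠ i in (𝒰 : Filter ι), x i ∈ G i := by
  by_cases h : ∃ r > (0 : ℝ), ∀ᶠ i in (𝒰 : Filter ι), ∀ x ∈ ball p r, x ∉ G i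
  · exact .inl h
  have h1 : ∀ r > (0 : ℝ), ∀ᶠ i in (𝒰 : Filter ι), ∃ x ∈ ball p r, x ∈ G i := fun r hr =>
    (Ultrafilter.eventually_not.2 fun h' => h ⟨r, hr, h'⟩).mono fun i hi => by
      push Not at hi; exact hi
  have h2 : ∀ i, ∃ x, IsClosed (G i) → (G i).Nonempty → x ∈ G i ∧ infDist p (G i) = dist p x :=
    fun i => by
      by_cases h : IsClosed (G i) ∧ (G i).Nonempty
      · obtain ⟨x, hx⟩ := h.1.exists_infDist_eq_dist h.2 p
        exact ⟨x, fun _ _ => hx⟩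
      · exact ⟨p, fun a b => (h ⟨a, b⟩).elim⟩
  choose x hx using h2
  refine .inr ⟨x, Metric.tendsto_nhds.2 fun r hr => ?_, ?_⟩
  · filter_upwards [hG, h1 r hr] with i a ⟨y, b, c⟩
    rw [dist_comm, ← (hx i a ⟨y, c⟩).2]
    exact (infDist_le_dist_of_mem c).trans_lt (mem_ball'.1 b)
  · filter_upwards [hG, h1 1 one_pos] with i a ⟨y, _, c⟩ using (hx i a ⟨y, c⟩).1

theorem norm_n {S : Surf N} {x₀ x : E N} {R η Λ : ℝ} (hS : S.Ok) (hb : S.Bd x₀ R η Λ)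
    (hη : η ≤ 1 / 2) (hx : x ∈ ball x₀ R) : |‖S.n x‖ - 1| ≤ 2 * η := by
  have h1 := abs_real_inner_le_norm (S.n x) (S.B x (S.n x) - S.n x)
  have h2 := hb.Bsub hx (S.n x)
  have h3 := hb.n_sq hS hη hx
  have h4 := hb.η0 hx
  have h5 := norm_nonneg (S.n x)
  rw [inner_sub_right, real_inner_self_eq_norm_sq, show ⟪S.n x, S.B x (S.n x)⟫ = 1 from hS.nν x]
    at h1
  have h6 : |1 - ‖S.n x‖ ^ 2| ≤ 2 * η := h1.trans (by nlinarith)
  rw [abs_le] at h6 ⊢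
  constructor <;> nlinarith

/-- the limit near the point `p`: the surfaces are graphs, which converge to a smooth graph -/
structure Gl (𝒰 : Ultrafilter ι) (S : ι → Surf (m + 1)) (B : E (m + 1) → En (m + 1))
    (a : E (m + 1) → ℝ) (p e : E (m + 1)) (L : E m →ₗᵢ[ℝ] E (m + 1)) (c : ℝ) (w : ι → E m → ℝ)
    (w₀ : E m → ℝ) : Prop where
  fr : Fr e L
  sm : Smooth w₀
  bd : ∀ y, ‖y‖ ≤ c → |w₀ y| ≤ ‖y‖ / 2 ∧ ‖gradient w₀ y‖ ≤ 1 / 2
  gr : ∃ A, ∀ᶠ i in (𝒰 : Filter ι), Smooth (w i) ∧ C2H (1 / 2) A (w i) ∧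
    (∀ y, ‖gradient (w i) y‖ ≤ 1 / 2) ∧ Gr (S i) p e L (2 * c) (w i)
  m0 : Mv 𝒰 (closedBall 0 c) w w₀
  m1 : Mv 𝒰 (closedBall 0 c) (fun i => gradient (w i)) (gradient w₀)
  m2 : Mv 𝒰 (closedBall 0 c) (fun i => fderiv ℝ (gradient (w i))) (fderiv ℝ (gradient w₀))
  cw : Cw 𝒰 S (gs p e L w₀ B a) (cyl p e L c)

/-- **GLIM**, for every frame of the limit of the normals -/
theorem glim' (hW : WHITE) (m : ℕ) : ∃ ε > (0 : ℝ), ∃ c > (0 : ℝ), ε ≤ 1 / 2 ∧ c ≤ 1 / 4 ∧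
    ∀ (ι : Type) (𝒰 : Ultrafilter ι) (S : ι → Surf (m + 1)) (O : Set (E (m + 1)))
      (B : E (m + 1) → En (m + 1)) (a h : E (m + 1) → ℝ) (x₀ p : E (m + 1)) (l : ℝ)
      (x : ι → E (m + 1)), Cv 𝒰 S O B a h → 0 < l → ball x₀ (4 * l) ⊆ O →
      (∀ᶠ i in (𝒰 : Filter ι), (S i).Bd x₀ (4 * l) ε (ε / l) ∧ (S i).th x₀ l ≤ 1 + ε) →
      p ∈ ball x₀ (c * l) → Tendsto x 𝒰 (𝓝 p) → (∀ᶠ i in (𝒰 : Filter ι), (S i).Φ (x i) = 0) →
      ∃ n₀, n₀ ≠ 0 ∧ Tendsto (fun i => (S i).n (x i)) 𝒰 (𝓝 n₀) ∧ ∀ L, Fr (‖n₀‖⁻¹ • n₀) L →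
        ∃ w w₀, Gl 𝒰 S B a p (‖n₀‖⁻¹ • n₀) L (c * l) w w₀ := by
  obtain ⟨ε₀, ε0, c₀, c0, C, hw⟩ := hW m (1 / 2) ⟨by norm_num, by norm_num⟩
  set c₁ := min c₀ 1 with hc₁
  have c1 : 0 < c₁ := lt_min c0 one_pos
  have c2 : c₁ ≤ c₀ := min_le_left _ _
  have c3 : c₁ ≤ 1 := min_le_right _ _
  set ε := min ε₀ (c₁ / 4) with hε
  have ε1 : ε ≤ ε₀ := min_le_left _ _
  have ε2 : ε ≤ c₁ / 4 := min_le_right _ _
  refine ⟨ε, lt_min ε0 (by positivity), c₁ / 4, by positivity, by linarith, by linarith,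
    fun ι 𝒰 S O B a h x₀ p l x hC hl hO hb hp hx hz => ?_⟩
  have cl : 0 < c₁ * l := by positivity
  have p1 : ball x₀ (c₁ / 4 * l) ⊆ ball x₀ (4 * l) := ball_subset_ball (by nlinarith)
  have x1 := hx.eventually (isOpen_ball.mem_nhds hp)
  have n1 : ∀ᶠ i in (𝒰 : Filter ι), |‖(S i).n (x i)‖ - 1| ≤ 2 * ε := by
    filter_upwards [hC.ok, hb, x1] with i h1 h2 h3 using norm_n h1 h2.1 (by linarith) (p1 h3)
  obtain ⟨n₀, -, hn⟩ := (isCompact_closedBall (0 : E (m + 1)) 2).ultrafilter_le_nhds'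
    (𝒰.map fun i => (S i).n (x i)) (by
      rw [Ultrafilter.mem_map]
      exact n1.mono fun i hi => mem_closedBall_zero_iff.2 (by linarith [(abs_le.1 hi).2]))
  replace hn : Tendsto (fun i => (S i).n (x i)) 𝒰 (𝓝 n₀) := hn
  have n2 : |‖n₀‖ - 1| ≤ 2 * ε := le_of_tendsto (hn.norm.sub_const 1).abs n1
  have n3 : 0 < ‖n₀‖ := by linarith [(abs_le.1 n2).1]
  refine ⟨n₀, norm_pos_iff.1 n3, hn, fun L hF => ?_⟩
  set e := ‖n₀‖⁻¹ • n₀ with he
  have n4 : ‖n₀ - e‖ < c₀ := by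
    have : n₀ - e = (‖n₀‖ - 1) • e := by
      rw [sub_smul, one_smul, he, smul_smul, mul_inv_cancel₀ n3.ne', one_smul]
    rw [this, norm_smul, hF.one, mul_one, Real.norm_eq_abs]
    linarith
  obtain ⟨A, hA⟩ := c2h_aff (m := m) (α := 1 / 2) (A := C) hl
  have key : ∀ᶠ i in (𝒰 : Filter ι), ∃ w : E m → ℝ, (Smooth w ∧ C2H (1 / 2) A w ∧
      (∀ y, ‖gradient w y‖ ≤ 1 / 2) ∧ Gr (S i) p e L (2 * (c₁ / 4 * l)) w) ∧
      |w 0| ≤ 2 * ‖x i - p‖ := by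
    filter_upwards [hC.ok, hb, x1, hz, (hn.sub_const e).norm.eventually (gt_mem_nhds n4),
      hx.eventually (ball_mem_nhds p (lt_min one_pos (half_pos cl)))] with i h1 h2 h3 h4 h5 h6
    obtain ⟨k1, k2, -, -, k3⟩ := aff m (S i) (ContinuousLinearEquiv.refl ℝ _) x₀ l 1 h1 hl one_pos
    have k4 := (scb m (S i) x₀ x₀ _ _ _ l 4 h1 h2.1 hl (by rw [mul_comm])).mono Subset.rfl ε1
      (show l * (ε / l) ≤ ε₀ by rwa [mul_div_cancel₀ _ hl.ne'])
    have k5 : x₀ + l • (ContinuousLinearEquiv.refl ℝ _) (l⁻¹ • (x i - x₀)) = x i := by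
      simp [smul_smul, hl.ne']
    obtain ⟨w, w1, w2, w3, w4⟩ := (hw _ k1 k4 (by
      rw [k3]; simpa using h2.2.trans (by linarith))).2 (l⁻¹ • (x i - x₀)) (by
        rw [mem_ball_zero_iff, norm_smul, norm_inv, Real.norm_of_nonneg hl.le,
          inv_mul_lt_iff₀ hl]
        exact (mem_ball_iff_norm.1 h3).trans_le (by nlinarith))
      (by simp only [Surf.aff, k5, h4]) e L hF (by
        rw [k2, k5]; simpa [ContinuousLinearMap.adjoint_id] using h5.le)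
    rw [dist_eq_norm, lt_min_iff] at h6
    have d1 : |⟪e, x i - p⟫| ≤ ‖x i - p‖ := by
      simpa [hF.one] using abs_real_inner_le_norm e (x i - p)
    have d2 := hF.norm_adj (x i - p)
    have wd := w2.1.differentiable two_ne_zero
    refine ⟨fun y => ⟪e, x i - p⟫ + l * w (l⁻¹ • (y - adj L (x i - p))), ⟨contDiff_const.add
      (contDiff_const.mul (ContDiff.comp w1 ((contDiff_id.sub contDiff_const).const_smul _))),
      hA w _ _ w2 (d1.trans h6.1.le), fun y => ?_, fun y s y1 s1 => ?_⟩, ?_⟩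
    · rw [norm_gradient, (fderiv_aff wd l l⁻¹ _ _ y).fderiv, mul_inv_cancel₀ hl.ne', one_smul,
        ← norm_gradient]
      exact w3 _
    · have y2 : ‖l⁻¹ • (y - adj L (x i - p))‖ < c₀ := by
        rw [norm_smul, norm_inv, Real.norm_of_nonneg hl.le, inv_mul_lt_iff₀ hl]
        have := norm_sub_le y (adj L (x i - p))
        nlinarith [h6.2]
      have s2 : |l⁻¹ * (s - ⟪e, x i - p⟫)| < c₀ := by
        rw [abs_mul, abs_of_pos (inv_pos.2 hl), inv_mul_lt_iff₀ hl]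
        have := abs_sub s ⟪e, x i - p⟫
        nlinarith [h6.2]
      have g := w4 _ _ y2 s2
      have e1 : x₀ + l • (ContinuousLinearEquiv.refl ℝ _) (l⁻¹ • (x i - x₀)
          + L (l⁻¹ • (y - adj L (x i - p))) + (l⁻¹ * (s - ⟪e, x i - p⟫)) • e)
          = p + L y + s • e := by
        have := hF.dec (x i - p)
        simp only [ContinuousLinearEquiv.refl_apply, map_smul, smul_add, mul_smul,
          smul_inv_smul₀ hl.ne', map_sub L, sub_smul]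
        linear_combination (norm := module) -this
      simp only [Surf.aff, e1] at g
      rw [g.1, g.2, inv_mul_lt_iff₀ hl, inv_mul_eq_iff_eq_mul₀ hl.ne', sub_lt_iff_lt_add',
        sub_eq_iff_eq_add']
      exact ⟨Iff.rfl, Iff.rfl⟩
    · have w0 : w 0 = 0 := ((w4 0 0 (by simpa) (by simpa)).2.1 (by
        simp only [Surf.aff, map_zero, add_zero, zero_smul, k5, h4])).symm
      have := lip_of_grad wd w3 (l⁻¹ • (0 - adj L (x i - p))) 0
      rw [w0, sub_zero, sub_zero, norm_smul, norm_inv, Real.norm_of_nonneg hl.le, zero_sub,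
        norm_neg] at this
      refine (abs_add_le _ _).trans ?_
      rw [abs_mul, abs_of_pos hl, zero_sub]
      have h7 := mul_le_mul_of_nonneg_left this hl.le
      rw [← mul_assoc, ← mul_assoc, mul_right_comm l, mul_inv_cancel₀ hl.ne'] at h7
      linarith [norm_nonneg (x i - p)]
  obtain ⟨w, hw'⟩ := key.choice
  have O1 : cyl p e L (2 * (c₁ / 4 * l)) ⊆ O := (cyl_sub_ball hF).trans (Subset.trans
    (ball_subset_ball' (by have := mem_ball.1 hp; nlinarith)) hO)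
  have h0 : Tendsto (fun i => w i 0) 𝒰 (𝓝 0) := squeeze_zero_norm' (hw'.mono fun i hi => hi.2)
    (by simpa using (tendsto_iff_norm_sub_tendsto_zero.1 hx).const_mul 2)
  obtain ⟨w₀, s0, b0, m0, m1, m2⟩ := hC.smooth hF ⟨by norm_num, by norm_num⟩ (by positivity) O1
    (hw'.mono fun i hi => hi.1.2) h0
  have cw := hC.cw hF (by positivity) O1 (hw'.mono fun i hi => ⟨hi.1.2.1.1, hi.1.2.2.2⟩) s0
    (fun y hy => (b0 y hy).1.trans_lt (by linarith)) m0 m1 m2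
  rw [mul_div_cancel_left₀ _ two_ne_zero] at b0 m0 m1 m2 cw
  exact ⟨w, w₀, hF, s0, b0, ⟨A, hw'.mono fun i hi => hi.1⟩, m0, m1, m2, cw⟩

/-- **GLIM** -/
theorem glim (hW : WHITE) (m : ℕ) : ∃ ε > (0 : ℝ), ∃ c > (0 : ℝ), ε ≤ 1 / 2 ∧ c ≤ 1 / 4 ∧
    ∀ (ι : Type) (𝒰 : Ultrafilter ι) (S : ι → Surf (m + 1)) (O : Set (E (m + 1)))
      (B : E (m + 1) → En (m + 1)) (a h : E (m + 1) → ℝ) (x₀ p : E (m + 1)) (l : ℝ)
      (x : ι → E (m + 1)), Cv 𝒰 S O B a h → 0 < l → ball x₀ (4 * l) ⊆ O →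
      (∀ᶠ i in (𝒰 : Filter ι), (S i).Bd x₀ (4 * l) ε (ε / l) ∧ (S i).th x₀ l ≤ 1 + ε) →
      p ∈ ball x₀ (c * l) → Tendsto x 𝒰 (𝓝 p) → (∀ᶠ i in (𝒰 : Filter ι), (S i).Φ (x i) = 0) →
      ∃ e L w w₀, Gl 𝒰 S B a p e L (c * l) w w₀ := by
  obtain ⟨ε, ε0, c, c0, h1, h2, h⟩ := glim' hW m
  refine ⟨ε, ε0, c, c0, h1, h2, fun ι 𝒰 S O B a h' x₀ p l x a1 a2 a3 a4 a5 a6 a7 => ?_⟩
  obtain ⟨n₀, b1, -, b2⟩ := h ι 𝒰 S O B a h' x₀ p l x a1 a2 a3 a4 a5 a6 a7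
  obtain ⟨L, hF⟩ := exists_fr (e := ‖n₀‖⁻¹ • n₀) (norm_smul_inv_norm b1)
  exact ⟨_, L, b2 L hF⟩

end Vale.Agent.P366R
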