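import Vale.Agent.P366R.Rgc2
import Vale.Agent.P366W.Ureg
import Vale.Agent.P366L.Null

/-!
# P366R: uniform bounds of the derivatives of the graphs
-/

open MeasureTheory Metric Filter Topology Set
open scoped ContDiff ENNReal RealInnerProductSpace
open Vale.Agent.P366.Stmt Vale.Agent.P366W Vale.Agent.P366Y Vale.Agent.P366Z

noncomputable section

namespace Vale.Agent.P366R

variable {n : ℕ} {ι : Type} {l : Filter ι} {x : E n} {α : ℝ} {v : ι → E n → ℝ}

theorem ureg' (hα : α ∈ Ioo (0 : ℝ) 1) {a : E n × ℝ × E n → Mx n} {b : ι → E n × ℝ × E n → ℝ}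
    {j₀ : E n × ℝ × E n} (hv : LH α l x 1 v) (ha : ContDiff ℝ ∞ a) (hb : UB l j₀ b)
    (ht : Tendsto (fun p : ι × E n => (p.2, v p.1 p.2, gradient (v p.1) p.2)) (l ×ˢ 𝓝 x) (𝓝 j₀))
    (h0 : ∀ ξ : E n, ξ ≠ 0 → 0 < ∑ i, ∑ j, a j₀ i j * ξ i * ξ j)
    (he : ∀ᶠ p in l ×ˢ 𝓝 x, pr2 (a (p.2, v p.1 p.2, gradient (v p.1) p.2)) (D2 (v p.1) p.2) =
      b p.1 (p.2, v p.1 p.2, gradient (v p.1) p.2)) : UB l x v := by
  have s : ∀ A H : Mx n, (∀ i j, H i j = H j i) →
      pr2 (fun i j => (A i j + A j i) / 2) H = pr2 A H := fun A H h => by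
    have : ∑ i, ∑ j, A j i * H i j = ∑ i, ∑ j, A i j * H i j := by
      rw [Finset.sum_comm]; simp only [fun i j => h j i]
    simp only [pr2, div_mul_eq_mul_div, add_mul, ← Finset.sum_div, Finset.sum_add_distrib, this]
    ring
  have a1 : ContDiff ℝ ∞ fun z i j => (a z i j + a z j i) / 2 :=
    contDiff_pi.2 fun i => contDiff_pi.2 fun j => ((contDiff_pi.1 (contDiff_pi.1 ha i) j).add
      (contDiff_pi.1 (contDiff_pi.1 ha j) i)).div_const 2
  obtain ⟨Λ, hE⟩ := el_of_lim ((a1.continuous.tendsto j₀).comp ht)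
    (.of_forall fun p i j => by simp only [Function.comp, add_comm]) fun ξ hξ => by
      have := s (a j₀) (fun i j => ξ i * ξ j) fun i j => mul_comm _ _
      simp only [pr2, ← mul_assoc] at this
      rw [this]
      exact h0 (WithLp.toLp 2 ξ) (by simpa using hξ)
  refine ureg hα hv (ub_smooth (.of_forall fun _ => a1.contDiffAt)) hb ht hE ?_
  filter_upwards [he, hv.sm] with p h1 h2
  exact (s _ _ fun i j => pd_comm (h2.of_le two_le_inf) i j).trans h1

theorem Mv.prod {X V : Type} [TopologicalSpace X] [PseudoMetricSpace V] {𝒰 : Ultrafilter ι}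
    {K : Set X} {f : ι → X → V} {f₀ : X → V} (h : Mv 𝒰 K f f₀) (hK : IsCompact K)
    (h0 : Continuous f₀) {y : X} (hy : K ∈ 𝓝 y) :
    Tendsto (fun p : ι × X => f p.1 p.2) ((𝒰 : Filter ι) ×ˢ 𝓝 y) (𝓝 (f₀ y)) :=
  TendstoUniformlyOn.tendsto_comp (F := fun p : ι × X => f p.1) (fun u hu => tendsto_fst.eventually
    (h.unif hK Subset.rfl (fun _ _ => h0.continuousAt) u hu)) h0.continuousWithinAt
    (by rw [nhdsWithin_eq_nhds.2 hy]; exact tendsto_snd)

theorem gub : GUB := fun m I 𝒰 S O B a h p e L c w w₀ g hC hg hO hB ha hu hH y hy => by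
  obtain ⟨A, hA⟩ := hg.gr
  have hF := hg.fr
  have K := closedBall_mem_nhds_of_mem (mem_ball_zero_iff.2 hy)
  have t0 := hg.m0.prod (isCompact_closedBall _ _) hg.sm.continuous K
  have t1 := hg.m1.prod (isCompact_closedBall _ _) (smooth_gradient hg.sm).continuous K
  have sw : SM 𝒰 y w := (tendsto_fst.eventually hA).mono fun _ a => a.1.contDiffAt
  have x1 : ContDiff ℝ ∞ fun z : E m × ℝ × E m => p + L z.1 + z.2.1 • e :=
    (contDiff_const.add (L.toContinuousLinearMap.contDiff.comp contDiff_fst)).add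
      (contDiff_snd.fst.smul contDiff_const)
  refine ureg' (α := 1 / 2) (a := fun z => aJ e L (B (p + L z.1 + z.2.1 • e)) z.2.2)
    (b := fun i z => bJ e L (B (p + L z.1 + z.2.1 • e)) (fderiv ℝ B (p + L z.1 + z.2.1 • e))
      (a (p + L z.1 + z.2.1 • e)) (fderiv ℝ a (p + L z.1 + z.2.1 • e)) z.2.2
      - g i (p + L z.1 + z.2.1 • e)) ⟨by norm_num, by norm_num⟩
    (lh_of_pd ⟨sw, |A|, abs_nonneg _, (tendsto_fst.eventually hA).mono fun q a => ?_⟩ fun j =>
      ⟨sw.mono fun _ a => contDiffAt_pd a le_rfl j, |A|, abs_nonneg _,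
        (tendsto_fst.eventually hA).mono fun q a => ?_⟩)
    (contDiff_iff_contDiffAt.2 fun z => sm_aJ (hC.smB.comp x1).contDiffAt
      contDiffAt_snd.snd (WJ_pos hF (hC.pos _) _))
    ((ub_smooth (.of_forall fun z => sm_bJ (hC.smB.comp x1).contDiffAt
      contDiffAt_snd.snd (WJ_pos hF (hC.pos _) _)
      ((hC.smB.fderiv_right (m := ∞) (by simp)).comp x1).contDiffAt (hC.sma.comp x1).contDiffAt
      ((hC.sma.fderiv_right (m := ∞) (by simp)).comp x1).contDiffAt (hC.a0 _).ne')).sub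
      ((hu _).comp (ub_smooth (.of_forall fun _ => x1.contDiffAt))
        ((x1.continuous.tendsto _).comp tendsto_snd)))
    (tendsto_snd.prodMk_nhds (t0.prodMk_nhds t1))
    (fun ξ hξ => aJ_pos hF (hC.sym _) (hC.pos _) _ hξ) ?_
  · have := ho_mono a.2.1.2.1 (le_abs_self A)
    exact ⟨this.1 _, this.2 _ _⟩
  · have := ho_mono a.2.1.2.2.1 (le_abs_self A)
    exact ⟨(norm_le_pi_norm (D1 (w q.1) q.2.1) j).trans (this.1 _),
      (norm_le_pi_norm (D1 (w q.1) q.2.1 - D1 (w q.1) q.2.2) j).trans (this.2 _ _)⟩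
  · have c0 : 0 < c := (norm_nonneg _).trans_lt hy
    filter_upwards [tendsto_fst.eventually hA, tendsto_fst.eventually hC.ok,
      tendsto_fst.eventually hH,
      tendsto_snd.norm.eventually (gt_mem_nhds (show ‖y‖ < 2 * c by linarith)),
      t0.abs.eventually (gt_mem_nhds ((hg.bd y hy.le).1.trans_lt
        (show ‖y‖ / 2 < 2 * c by linarith)))] with q h1 h2 h3 h4 h5
    have := H_jet h1.2.2.2 h2 hF h1.2.1.1 h4 h5
    rw [hB, ha, gam, h3 _ (hO (hF.mem_cyl.2 ⟨h4, h5⟩)) ((h1.2.2.2 _ _ h4 h5).2.2 rfl)] at this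
    rw [this]
    ring

theorem cbd : CBD := fun _ _ _ _ _ _ _ _ _ _ _ _ _ z p h hp hz hN _ =>
  P366L.cf_bd' h (by rwa [P366P.ini_snc]) (by rwa [P366P.snc_last]) (by rwa [P366P.ini_snc])

/-- **RGC** -/
theorem rgc : P366C.RGC := rgc_of cbd gub

end Vale.Agent.P366R
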