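import Vale.Agent.P366R.Regl
import Vale.Agent.P366W.White3

/-!
# P366R: the regularity of the limits
-/

namespace Vale.Agent.P366R

theorem regl : P366L.REGL := regl_of P366W.white

end Vale.Agent.P366R
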