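import Vale.Agent.P366C.ChD
import Vale.Agent.P366W.Brg0

/-!
# P366R: limits of capillary graphs are vertical
-/

open MeasureTheory Metric Filter Topology Set
open scoped ContDiff ENNReal RealInnerProductSpace
open Vale.Agent.P366.Stmt Vale.Agent.P366W
open Vale.Agent.P366D (snc ini)
open Vale.Agent.P366P (hw ini_snc snc_last snc_ini sm_ini cont_snc)
open Vale.Agent.P366C (Cf Rc Nm RGC a0)
open Fin (last)

noncomputable section

namespace Vale.Agent.P366R

variable {k n N : ℕ} {I : Type}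

theorem norm_snc (y : E k) (s : ℝ) : ‖snc y s‖ ^ 2 = ‖y‖ ^ 2 + s ^ 2 := by
  rw [← Lz_add, (fr_el k).norm_sq]

theorem snc_lt {y : E k} {s c : ℝ} (h1 : ‖y‖ < c / 2) (h2 : |s| < c / 2) : ‖snc y s‖ < c := by
  rw [← Lz_add]
  refine (norm_add_le _ _).trans_lt ?_
  rw [(Lz k).norm_map, norm_smul, (fr_el k).one, Real.norm_eq_abs]
  linarith

theorem ini_add (x y : E (k + 1)) : ini (x + y) = ini x + ini y := rfl

theorem ini_smul (c : ℝ) (x : E (k + 1)) : ini (c • x) = c • ini x := rfl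

theorem ini_Lz (y : E k) : ini (Lz k y) = y := ini_snc y 0

theorem snc_add (y y' : E k) (s s' : ℝ) : snc y s + snc y' s' = snc (y + y') (s + s') := by
  simp only [← Lz_add, map_add, add_smul]; abel

theorem smul_snc (c : ℝ) (y : E k) (s : ℝ) : c • snc y s = snc (c • y) (c * s) := by
  simp only [← Lz_add, map_smul, smul_add, mul_smul]

/-- the product of a hyperplane with the vertical line -/
def Lh (L : E k →ₗᵢ[ℝ] E (k + 1)) : E (k + 1) →ₗᵢ[ℝ] E (k + 1 + 1) where
  toFun x := snc (L (ini x)) (x (last k))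
  map_add' x y := by rw [snc_add, ini_add, map_add]; rfl
  map_smul' c x := by rw [RingHom.id_apply, smul_snc, ini_smul, map_smul]; rfl
  norm_map' x := by
    rw [← sq_eq_sq₀ (norm_nonneg _) (norm_nonneg _)]
    change ‖snc _ _‖ ^ 2 = _
    rw [norm_snc, L.norm_map, ← norm_snc, snc_ini]

variable {p e : E (k + 1)} {L : E k →ₗᵢ[ℝ] E (k + 1)}

theorem Lh_pt (y : E k) (z t s : ℝ) : snc p z + Lh L (snc y t) + s • -Lz (k + 1) e =
    snc (p + L y + (-s) • e) (z + t) := by
  change snc p z + snc (L (ini (snc y t))) (snc y t (last k)) + s • -Lz (k + 1) e = _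
  rw [ini_snc, snc_last, ← map_neg, ← map_smul]
  change _ + snc _ 0 = _
  rw [snc_add, snc_add, add_zero, smul_neg, neg_smul]

theorem fr_Lh (h : Fr e L) : Fr (-Lz (k + 1) e) (Lh L) :=
  ⟨by rw [norm_neg, (Lz _).norm_map, h.one], fun y => by
    rw [inner_neg_left, ← inner_adj, adj_Lz]
    change -⟪e, ini (snc _ _)⟫ = 0
    rw [ini_snc, h.ort, neg_zero]⟩

section cyl

variable {G : Field n} {T : Surf (n + 1)} {T' : Surf n} {x : E (n + 1)}

theorem cyl_n (hB : T.B = B1 G) (hB' : T'.B = B0 G) (h : T'.Ok)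
    (hΦ : T.Φ =ᶠ[𝓝 x] fun y => -T'.Φ (ini y)) :
    T.n x = -Lz n (T'.n (ini x)) ∧ T.ν x = -Lz n (T'.ν (ini x)) := by
  have g : gradient T.Φ x = -Lz n (gradient T'.Φ (ini x)) := ext_inner_right ℝ fun v => by
    have := ((h.dΦ (adj (Lz n) x)).hasFDerivAt.comp x (adj (Lz n)).hasFDerivAt).neg
    simp only [Function.comp_def, adj_Lz] at this
    rw [inner_grad, hΦ.fderiv_eq, inner_neg_left, ← inner_adj, inner_grad]
    exact congrArg (fun M => M v) this.fderiv
  have W : T.W x = T'.W (ini x) := by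
    rw [Surf.W, g, map_neg, inner_neg_neg, hB, inner_B1, ini_Lz, Lz_last, Surf.W, hB']
    simp
  have a : T.n x = -Lz n (T'.n (ini x)) := by rw [Surf.n, g, W, Surf.n, map_smul, smul_neg]
  refine ⟨a, ?_⟩
  rw [Surf.ν, a, map_neg, hB, B1_apply, ini_Lz, Lz_last, Surf.ν, hB']
  simp

theorem cyl_H (hB : T.B = B1 G) (hB' : T'.B = B0 G) (ha : T.a = fun y => T'.a (ini y)) (h : T'.Ok)
    (hΦ : T.Φ =ᶠ[𝓝 x] fun y => -T'.Φ (ini y)) : T.H x = -T'.H (ini x) := by
  have e : (fun y => T.a y • T.ν y) =ᶠ[𝓝 x] fun y =>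
      -Lz n (T'.a (adj (Lz n) y) • T'.ν (adj (Lz n) y)) := by
    filter_upwards [hΦ.eventuallyEq_nhds] with y hy
    rw [(cyl_n hB hB' h hy).2, ha, adj_Lz, map_smul, smul_neg]
  have d := ((Lz n).toContinuousLinearMap.hasFDerivAt.comp x
    (((h.da _).fun_smul (h.dν _)).hasFDerivAt.comp x (adj (Lz n)).hasFDerivAt)).neg
  rw [Surf.H, Surf.H, dvg_congr e, dvg_eq, dvg_eq, ← neg_div, ha]
  simp only [← adj_Lz]
  congr 1
  refine (congrArg trc d.fderiv).trans ?_
  rw [(fr_el n).trc, trc, ← Finset.sum_neg_distrib]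
  simp [adj_L, (fr_el n).adj_e, EuclideanSpace.inner_single_left]

end cyl

variable {𝒰 : Ultrafilter I} {G : Field n} {φ H : E n → ℝ} {u : I → E n → ℝ} {c ε : I → ℝ}
  {O : Set (E n)} {S Λ : ℝ}

/-- the slab -/
def Sl (O : Set (E n)) (S : ℝ) : Set (E (n + 1)) := {x | ini x ∈ O ∧ |x (last n)| < S}

theorem isOpen_Sl (hO : IsOpen O) : IsOpen (Sl O S) :=
  (hO.preimage sm_ini.continuous).inter
    (isOpen_lt (f := fun x : E (n + 1) => |x (last n)|) (by fun_prop) continuous_const)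

theorem cf_H (h : Cf 𝒰 G φ H u c ε O S Λ) : ∀ᶠ i in (𝒰 : Filter I), ∀ x ∈ Sl O S,
    (cs G φ (u i)).Φ x = 0 → (cs G φ (u i)).H x = -(H (ini x) + c i + ε i * x (last n)) := by
  filter_upwards [h.eq] with i hi x hx h0
  rw [cs_Φ, sub_eq_zero] at h0
  rw [cs_H h.met h.smφ (h.smu i), hi _ hx.1 (h0 ▸ hx.2), h0]

theorem cf_cv (h : Cf 𝒰 G φ H u c ε O S Λ) : Cv 𝒰 (fun i => cs G φ (u i)) (Sl O S) (B1 G)
    (a1 G φ) fun x => -H (ini x) := by
  have b := sm_B1 h.met
  have a := sm_a1 h.met h.smφ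
  have s : ContDiff ℝ ∞ fun x => H (ini x) := ContDiff.comp h.smH sm_ini
  refine ⟨.of_forall fun i => cs_ok h.met h.smφ (h.smu i), b, a, s.neg, B1_sym h.met,
    B1_pos h.met, a1_pos h.met φ, Mv.const _ _ b.continuous,
    Mv.const _ _ (b.continuous_fderiv (by simp)), Mv.const _ _ a.continuous,
    Mv.const _ _ (a.continuous_fderiv (by simp)), fun x x₀ h0 hx hz => ?_⟩
  have := ((((s.continuous.tendsto _).comp hx).add h.c0).add (h.ε0.mul
    (((EuclideanSpace.proj (last n) : E (n + 1) →L[ℝ] ℝ).continuous.tendsto _).comp hx))).neg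
  rw [zero_mul, add_zero, add_zero] at this
  refine this.congr' ?_
  filter_upwards [cf_H h, hz, hx.eventually ((isOpen_Sl h.opn).mem_nhds h0)] with i h1 h2 h3
  exact (h1 _ h3 h2).symm

variable {T : Surf (n + 1)} {W : Set (E (n + 1))}

/-- the sides of the limit are vertical -/
theorem vert (h : Cf 𝒰 G φ H u c ε O S Λ) (hW : Cw 𝒰 (fun i => cs G φ (u i)) T W) (ho : IsOpen W)
    (hs : W ⊆ Sl O S) {q : E n} {z z' : ℝ} (h1 : snc q z ∈ W) (h2 : snc q z' ∈ W)
    (h3 : T.Φ (snc q z) < 0) : T.Φ (snc q z') ≤ 0 := by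
  by_contra h4
  have ct : ∀ s, Continuous fun y : E n => snc y s := fun s =>
    cont_snc.comp (continuous_id.prodMk continuous_const)
  have c1 := hW.ok.smΦ.continuous
  obtain ⟨r, r0, hr⟩ := nhds_basis_closedBall.eventually_iff.1
    ((((ct z).continuousAt.eventually (ho.mem_nhds h1)).and
      ((ct z').continuousAt.eventually (ho.mem_nhds h2))).and
      (((c1.comp (ct z)).continuousAt.eventually (gt_mem_nhds h3)).and
        ((c1.comp (ct z')).continuousAt.eventually (lt_mem_nhds (not_le.1 h4)))))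
  have b1 := abs_lt.1 (hs h1).2
  have b2 := abs_lt.1 (hs h2).2
  rw [snc_last] at b1 b2
  have a := ev_cpt 𝒰 (isCompact_closedBall q r) (P := fun i y => |u i y| < S) fun y y₀ h5 h6 => by
    filter_upwards [hW.neg _ _ (hr h5).1.1 (((ct z).tendsto _).comp h6) (hr h5).2.1,
      hW.pos _ _ (hr h5).1.2 (((ct z').tendsto _).comp h6) (hr h5).2.2] with i a1 a2
    simp only [cs_Φ, Function.comp, ini_snc, snc_last] at a1 a2
    exact abs_lt.2 ⟨by linarith, by linarith⟩
  refine (measure_closedBall_pos volume q r0).not_ge (ge_of_tendsto h.vol ?_)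
  filter_upwards [a] with i hi
  exact measure_mono fun y hy => ⟨ini_snc y z ▸ (hs (hr hy).1.1).1, hi y hy⟩

theorem vert_n (h : Cf 𝒰 G φ H u c ε O S Λ) (hW : Cw 𝒰 (fun i => cs G φ (u i)) T W)
    (ho : IsOpen W) (hs : W ⊆ Sl O S) {q : E n} {z : ℝ} (h1 : snc q z ∈ W)
    (h0 : T.Φ (snc q z) = 0) : T.n (snc q z) (last n) = 0 := by
  have e : ∀ t : ℝ, snc q z + t • el n = snc q (z + t) := fun t => by
    rw [← Lz_add, ← Lz_add, add_smul, add_assoc]
  have d0 : HasDerivAt (fun t : ℝ => snc q z + t • el n) (el n) 0 := by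
    simpa using ((hasDerivAt_id (0 : ℝ)).smul_const (el n)).const_add (snc q z)
  have d := (hW.ok.dΦ _).hasFDerivAt.comp_hasDerivAt (0 : ℝ) d0
  have m := d0.continuousAt.eventually (ho.mem_nhds (by simpa using h1))
  simp only [e, Function.comp_def, add_zero] at d m
  have : fderiv ℝ T.Φ (snc q z) (el n) = 0 := by
    by_cases h2 : ∀ᶠ t in 𝓝 (0 : ℝ), 0 ≤ T.Φ (snc q (z + t))
    · exact IsLocalMin.hasDerivAt_eq_zero (h2.mono fun t ht => by simpa [h0] using ht) d
    · obtain ⟨t, a, b⟩ := ((not_eventually.1 h2).and_eventually m).exists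
      exact IsLocalMax.hasDerivAt_eq_zero (m.mono fun s hs' => by
        simpa [h0] using vert h hW ho hs b hs' (not_le.1 a)) d
  rw [hW.ok.fderiv_eq, mul_eq_zero, or_iff_right (hW.ok.W_pos _).ne', real_inner_comm,
    inner_el] at this
  exact this

end Vale.Agent.P366R
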