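import Vale.Agent.P366R.Jet
import Vale.Agent.P366Y.T.Regq

/-!
# P366R: limits of functions of class `C^(2, α)` along ultrafilters; local smoothness
-/

set_option maxSynthPendingDepth 3

open MeasureTheory Metric Filter Topology Set
open scoped ContDiff ENNReal RealInnerProductSpace
open Vale.Agent.P366.Stmt Vale.Agent.P366Y Vale.Agent.P366W Vale.Agent.P366Z
open Vale.Agent.P366Z.LinbH
open Vale.Agent.P272.K.R (HC Bil hc_id hc_const linear_reg allCCE)

noncomputable section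

namespace Vale.Agent.P366R

variable {m : ℕ} {ι X V : Type}

/-- convergence along moving points with limits in `O` -/
def Mv [TopologicalSpace X] [TopologicalSpace V] (l : Filter ι) (O : Set X) (f : ι → X → V)
    (f₀ : X → V) : Prop :=
  ∀ (x : ι → X) (x₀ : X), x₀ ∈ O → Tendsto x l (𝓝 x₀) → Tendsto (fun i => f i (x i)) l (𝓝 (f₀ x₀))

theorem Mv.pt [TopologicalSpace X] [TopologicalSpace V] {l : Filter ι} {O : Set X}
    {f : ι → X → V} {f₀ : X → V} (h : Mv l O f f₀) {x : X} (hx : x ∈ O) :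
    Tendsto (fun i => f i x) l (𝓝 (f₀ x)) := h (fun _ => x) x hx tendsto_const_nhds

theorem Mv.mono [TopologicalSpace X] [TopologicalSpace V] {l : Filter ι} {O O' : Set X}
    {f : ι → X → V} {f₀ : X → V} (h : Mv l O f f₀) (hO : O' ⊆ O) : Mv l O' f f₀ :=
  fun x x₀ hx => h x x₀ (hO hx)

theorem Mv.const [TopologicalSpace X] [TopologicalSpace V] (l : Filter ι) (O : Set X)
    {f : X → V} (hf : Continuous f) : Mv l O (fun _ => f) f :=
  fun _ _ _ hx => (hf.tendsto _).comp hx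

/-- a property which holds along all moving points holds uniformly on compact sets -/
theorem ev_cpt [TopologicalSpace X] (𝒰 : Ultrafilter ι) {K : Set X} (hK : IsCompact K)
    {P : ι → X → Prop} (h : ∀ (x : ι → X) (x₀ : X), x₀ ∈ K → Tendsto x 𝒰 (𝓝 x₀) →
      ∀ᶠ i in (𝒰 : Filter ι), P i (x i)) : ∀ᶠ i in (𝒰 : Filter ι), ∀ x ∈ K, P i x := by
  rcases K.eq_empty_or_nonempty with rfl | ⟨k, hk⟩
  · simp
  by_contra hc
  have h1 : ∀ i, ∃ x ∈ K, (∃ y ∈ K, ¬P i y) → ¬P i x := fun i => by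
    by_cases h : ∃ y ∈ K, ¬P i y
    · obtain ⟨y, h1, h2⟩ := h
      exact ⟨y, h1, fun _ => h2⟩
    · exact ⟨k, hk, fun h' => (h h').elim⟩
  choose x hx hP using h1
  obtain ⟨x₀, h0, hl⟩ := hK.ultrafilter_le_nhds' (𝒰.map x) (by
    rw [Ultrafilter.mem_map]; exact Eventually.of_forall hx)
  obtain ⟨i, a, b⟩ := ((h x x₀ h0 hl).and (Ultrafilter.eventually_not.2 hc)).exists
  push Not at b
  exact hP i b a

theorem Mv.unif [TopologicalSpace X] [PseudoMetricSpace V] {𝒰 : Ultrafilter ι} {O K : Set X}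
    {f : ι → X → V} {f₀ : X → V} (h : Mv 𝒰 O f f₀) (hK : IsCompact K) (hO : K ⊆ O)
    (h0 : ∀ x ∈ K, ContinuousAt f₀ x) : TendstoUniformlyOn f f₀ 𝒰 K :=
  Metric.tendstoUniformlyOn_iff.2 fun ε hε => ev_cpt 𝒰 hK fun x x₀ hx hl => by
    have := (((h0 x₀ hx).tendsto.comp hl).dist (h x x₀ (hO hx) hl)).eventually
      (gt_mem_nhds (by simpa using hε : dist (f₀ x₀) (f₀ x₀) < ε))
    exact this

theorem ho_cont [NormedAddCommGroup V] {α A : ℝ} {f : E m → V} (hα : 0 < α) (h : Ho α A f) :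
    Continuous f := continuous_iff_continuousAt.2 fun x => by
  rw [ContinuousAt, tendsto_iff_norm_sub_tendsto_zero]
  refine squeeze_zero (fun _ => norm_nonneg _) (fun y => h.2 y x) ?_
  have : Continuous fun y => A * ‖y - x‖ ^ α :=
    continuous_const.mul ((continuous_id.sub continuous_const).norm.rpow_const fun _ => .inr hα.le)
  simpa [Real.zero_rpow hα.ne'] using this.tendsto x

theorem ho_lim [NormedAddCommGroup V] [ProperSpace V] (𝒰 : Ultrafilter ι) {α A : ℝ} (hα : 0 < α)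
    {f : ι → E m → V} (h : ∀ᶠ i in (𝒰 : Filter ι), Ho α A (f i)) :
    ∃ f₀, Ho α A f₀ ∧ Mv 𝒰 univ f f₀ := by
  have h1 : ∀ x, ∃ t ∈ closedBall (0 : V) A, Tendsto (fun i => f i x) 𝒰 (𝓝 t) := fun x =>
    (isCompact_closedBall 0 A).ultrafilter_le_nhds' (𝒰.map fun i => f i x) (by
      rw [Ultrafilter.mem_map]
      exact h.mono fun i hi => mem_closedBall_zero_iff.2 (hi.1 x))
  choose f₀ h2 h3 using h1
  refine ⟨f₀, ⟨fun x => mem_closedBall_zero_iff.1 (h2 x), fun x y =>
    le_of_tendsto ((h3 x).sub (h3 y)).norm (h.mono fun i hi => hi.2 x y)⟩, fun x x₀ _ hx => ?_⟩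
  have h4 : Tendsto (fun i => f i (x i) - f i x₀) 𝒰 (𝓝 0) := by
    refine squeeze_zero_norm' (h.mono fun i hi => hi.2 (x i) x₀) ?_
    have : Continuous fun y => A * ‖y - x₀‖ ^ α := continuous_const.mul
      ((continuous_id.sub continuous_const).norm.rpow_const fun _ => .inr hα.le)
    simpa [Real.zero_rpow hα.ne', Function.comp_def] using (this.tendsto x₀).comp hx
  simpa using h4.add (h3 x₀)

/-- the linear form with given components -/
def cv (q : Vc m) : E m →L[ℝ] ℝ := ∑ j, q j • EuclideanSpace.proj j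

theorem cv_single (q : Vc m) (j : Fin m) : cv q (EuclideanSpace.single j 1) = q j := by
  simp [cv]

theorem smooth_cv {k : WithTop ℕ∞} : ContDiff ℝ k (cv : Vc m → _) :=
  ContDiff.sum fun j _ => (contDiff_apply ℝ ℝ j).smul contDiff_const

theorem fderiv_cv {f : E m → ℝ} {x : E m} (hf : DifferentiableAt ℝ f x) :
    fderiv ℝ f x = cv (D1 f x) := by
  ext1 v
  rw [fderiv_eq_sum hf]
  simp [cv, D1, mul_comm]

theorem der_lim (𝒰 : Ultrafilter ι) {f : ι → E m → ℝ} {f₀ : E m → ℝ} {g : E m → Vc m}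
    (hf : ∀ᶠ i in (𝒰 : Filter ι), Differentiable ℝ (f i)) (h0 : Mv 𝒰 univ f f₀)
    (h1 : Mv 𝒰 univ (fun i => D1 (f i)) g) (hg : Continuous g) (x : E m) :
    HasFDerivAt f₀ (cv (g x)) x := by
  have h2 : Mv 𝒰 univ (fun i y => cv (D1 (f i) y)) fun y => cv (g y) := fun y y₀ a b =>
    ((smooth_cv (k := 0)).continuous.tendsto _).comp (h1 y y₀ a b)
  have h3 := h2.unif (isCompact_closedBall x 1) (subset_univ _)
    fun y _ => ((smooth_cv (k := 0)).continuous.comp hg).continuousAt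
  refine hasFDerivAt_of_tendstoUniformlyOnFilter (g' := fun y => cv (g y))
    ((tendstoUniformlyOn_iff_tendstoUniformlyOnFilter.1 h3).mono_right
      (le_principal_iff.2 (closedBall_mem_nhds x one_pos))) ?_
    (.of_forall fun y => h0.pt (mem_univ y))
  exact (hf.prod_inl _).mono fun n hn => fderiv_cv (hn n.2) ▸ (hn n.2).hasFDerivAt

theorem c2h_lim (𝒰 : Ultrafilter ι) {α A : ℝ} (hα : 0 < α) {w : ι → E m → ℝ}
    (h : ∀ᶠ i in (𝒰 : Filter ι), C2H α A (w i)) : ∃ w₀, C2H α A w₀ ∧ Mv 𝒰 univ w w₀ ∧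
      Mv 𝒰 univ (fun i => D1 (w i)) (D1 w₀) ∧ Mv 𝒰 univ (fun i => D2 (w i)) (D2 w₀) := by
  obtain ⟨w₀, a0, b0⟩ := ho_lim 𝒰 hα (h.mono fun _ hi => hi.2.1)
  obtain ⟨g1, a1, b1⟩ := ho_lim 𝒰 hα (h.mono fun _ hi => hi.2.2.1)
  obtain ⟨g2, a2, b2⟩ := ho_lim 𝒰 hα (h.mono fun _ hi => hi.2.2.2)
  have c1 := der_lim 𝒰 (h.mono fun _ hi => hi.1.differentiable two_ne_zero) b0 b1 (ho_cont hα a1)
  have k2 := ho_cont hα a2
  have c2 : ∀ j x, HasFDerivAt (fun y => g1 y j) (cv fun k => g2 x k j) x := fun j =>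
    der_lim 𝒰 (f := fun i => pd j (w i)) (g := fun x k => g2 x k j)
      (h.mono fun _ hi x => diffAt_pd hi.1.contDiffAt j)
      (fun y y₀ a b => tendsto_pi_nhds.1 (b1 y y₀ a b) j)
      (fun y y₀ a b => tendsto_pi_nhds.2 fun k =>
        tendsto_pi_nhds.1 (tendsto_pi_nhds.1 (b2 y y₀ a b) k) j) (by fun_prop)
  have e1 : D1 w₀ = g1 := funext fun x => funext fun j => by
    rw [D1, pd_of_hasFDerivAt (c1 x), cv_single]
  have e2 : D2 w₀ = g2 := funext fun x => funext fun k => funext fun j => by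
    rw [D2, show pd j w₀ = fun y => g1 y j from funext fun y => congrFun (congrFun e1 y) j,
      pd_of_hasFDerivAt (c2 j x), cv_single]
  have s1 : ContDiff ℝ 1 g1 := contDiff_pi.2 fun j => by
    refine contDiff_one_iff_fderiv.2 ⟨fun x => (c2 j x).differentiableAt, ?_⟩
    rw [funext fun x => (c2 j x).fderiv]
    exact (smooth_cv (k := 0)).continuous.comp (by fun_prop)
  refine ⟨w₀, ⟨?_, a0, e1 ▸ a1, e2 ▸ a2⟩, b0, e1 ▸ b1, e2 ▸ b2⟩
  refine (contDiff_succ_iff_fderiv (n := 1)).2 ⟨fun x => (c1 x).differentiableAt, by simp, ?_⟩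
  rw [funext fun x => (c1 x).fderiv]
  exact smooth_cv.comp s1

theorem grad_eq {f : E m → ℝ} {x : E m} (hf : DifferentiableAt ℝ f x) :
    gradient f x = WithLp.toLp 2 (D1 f x) := by
  ext i
  rw [show (WithLp.toLp 2 (D1 f x) : E m) i = pd i f x from rfl, pd_eq hf, ← inner_grad,
    EuclideanSpace.inner_single_right]
  simp

/-- the linear map with given components -/
def Hs (A : Mx m) : En m :=
  ∑ k, ∑ j, A k j • (EuclideanSpace.proj k : E m →L[ℝ] ℝ).smulRight (EuclideanSpace.single j 1)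

theorem cont_Hs : Continuous (Hs : Mx m → _) := by unfold Hs; fun_prop

theorem hess_eq {f : E m → ℝ} (hf : ContDiff ℝ 2 f) (x : E m) :
    fderiv ℝ (gradient f) x = Hs (D2 f x) := by
  have hg : DifferentiableAt ℝ (gradient f) x :=
    (contDiff_gradient (k := 1) (by exact hf)).differentiable one_ne_zero x
  ext v j
  have h1 := ((EuclideanSpace.proj j : E m →L[ℝ] ℝ).hasFDerivAt.comp x hg.hasFDerivAt).fderiv
  have h2 : (EuclideanSpace.proj j : E m →L[ℝ] ℝ) ∘ gradient f = pd j f := funext fun y => by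
    simp only [Function.comp, grad_eq (hf.differentiable two_ne_zero y)]; rfl
  rw [h2] at h1
  have h3 := fderiv_eq_sum (diffAt_pd (hf.contDiffAt (x := x)) j) v
  rw [h1] at h3
  refine h3.trans ?_
  simp [Hs, D2, Pi.single_apply, mul_comm]

theorem c2h_lim' (𝒰 : Ultrafilter ι) {α A : ℝ} (hα : 0 < α) {w : ι → E m → ℝ}
    (h : ∀ᶠ i in (𝒰 : Filter ι), C2H α A (w i)) : ∃ w₀, C2H α A w₀ ∧ Mv 𝒰 univ w w₀ ∧
      Mv 𝒰 univ (fun i => gradient (w i)) (gradient w₀) ∧
      Mv 𝒰 univ (fun i => fderiv ℝ (gradient (w i))) (fderiv ℝ (gradient w₀)) := by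
  obtain ⟨w₀, a, b, c, d⟩ := c2h_lim 𝒰 hα h
  refine ⟨w₀, a, b, fun y y₀ p q => ?_, fun y y₀ p q => ?_⟩
  · rw [grad_eq (a.1.differentiable two_ne_zero _)]
    refine (((PiLp.continuous_toLp 2 _).tendsto _).comp (c y y₀ p q)).congr' ?_
    exact h.mono fun i hi => (grad_eq (hi.1.differentiable two_ne_zero _)).symm
  · rw [hess_eq a.1]
    exact ((cont_Hs.tendsto _).comp (d y y₀ p q)).congr' (h.mono fun i hi => (hess_eq hi.1 _).symm)

/-- local smoothness of the solutions of quasilinear equations -/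
theorem regq_loc {α A : ℝ} {v : E m → ℝ} {U : Set (E m)} {a : E m × ℝ × E m → Mx m}
    {b : E m × ℝ × E m → ℝ} (hα : α ∈ Ioo (0 : ℝ) 1) (hU : IsOpen U) (hv : C2H α A v)
    (ha : ContDiff ℝ ∞ a) (hb : ContDiff ℝ ∞ b)
    (hE : ∀ x ∈ U, ∀ ξ : E m, ξ ≠ 0 → 0 < ∑ i, ∑ j, a (x, v x, gradient v x) i j * ξ i * ξ j)
    (heq : ∀ x ∈ U, pr2 (a (x, v x, gradient v x)) (D2 v x) = b (x, v x, gradient v x)) :
    ContDiffOn ℝ ∞ v U := by
  obtain ⟨hα, hα1⟩ := hα
  have h2 := (RegqH.hc_two hα hα1.le hv).mono_set hU (subset_univ U)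
  let T := (InnerProductSpace.toDual ℝ (E m)).symm.toContinuousLinearEquiv
  let φ : E m × ℝ × (E m →L[ℝ] ℝ) → E m × ℝ × E m := fun q => (q.1, q.2.1, T q.2.2)
  have hφ : ContDiff ℝ ∞ φ := contDiff_fst.prodMk ((contDiff_fst.comp contDiff_snd).prodMk
    (T.contDiff.comp (contDiff_snd.comp contDiff_snd)))
  have e : ∀ x, φ (x, v x, fderiv ℝ v x) = (x, v x, gradient v x) := fun x => rfl
  have hA : ContDiff ℝ ∞ fun q => ∑ i, ∑ j, a (φ q) i j • ent i j :=
    ContDiff.sum fun i _ => ContDiff.sum fun j _ =>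
      (contDiff_pi.1 (contDiff_pi.1 (ha.comp hφ) i) j).smul contDiff_const
  have key : ∀ k, HC α U (k + 2) v := fun k => by
    induction k with
    | zero => exact h2
    | succ k ih =>
      have hj : HC α U (k + 1) fun x => (x, v x, fderiv ℝ v x) :=
        (hc_id hα1.le hU).prodMk hα hα1.le hU ((ih.of_succ hα hα1.le hU).prodMk hα hα1.le hU ih.2)
      refine linear_reg hα hα1.le (allCCE (E m) hα hα1) hU (k + 1) (c := fun _ => 0)
        (HC.comp_smooth hα hα1.le hU isOpen_univ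
          (fun y _ => hA.contDiffAt.of_le (by exact_mod_cast le_top)) hj fun _ _ => mem_univ _)
        (hc_const _ hU) (HC.comp_smooth hα hα1.le hU isOpen_univ
          (fun y _ => (hb.comp hφ).neg.contDiffAt.of_le (by exact_mod_cast le_top)) hj
          fun _ _ => mem_univ _) (fun x hx l hl => ?_) h2 fun x hx => ?_
      · refine (hE x hx (T l) (by simpa using hl)).trans_eq ?_
        have : ∀ i, T l i = l (ee i) := fun i => by
          rw [← InnerProductSpace.toDual_symm_apply, EuclideanSpace.inner_single_right]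
          simp [T]
        simp only [e, sum_apply, smul_apply, ent_apply, ContinuousLinearMap.smulRight_apply,
          smul_eq_mul, mul_assoc, this]
      · simp only [e, sum_apply, smul_apply, ent_apply, smul_eq_mul, Function.comp_apply,
          ← heq x hx, pr2, D2, pd_pd_eq hv.1.contDiffAt]
        ring
  exact contDiffOn_infty.2 fun k =>
    (HC.mono hα hα1.le hU (Nat.le_add_right k 2) (key k)).contDiffOn hα hU

end Vale.Agent.P366R
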