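import Vale.Agent.P366R.Jet2
import Vale.Agent.P366L.Basic

/-!
# P366R: limits of graphs
-/

open MeasureTheory Metric Filter Topology Set
open scoped ContDiff ENNReal RealInnerProductSpace
open Vale.Agent.P366.Stmt Vale.Agent.P366Y Vale.Agent.P366W

noncomputable section

namespace Vale.Agent.P366R

variable {N m : ℕ} {ι : Type}

/-- in `O` the data of the surfaces `S i` converge to the smooth data `B`, `a`, `h` -/
structure Cv (𝒰 : Ultrafilter ι) (S : ι → Surf N) (O : Set (E N)) (B : E N → En N)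
    (a h : E N → ℝ) : Prop where
  ok : ∀ᶠ i in (𝒰 : Filter ι), (S i).Ok
  smB : ContDiff ℝ ∞ B
  sma : ContDiff ℝ ∞ a
  smh : ContDiff ℝ ∞ h
  sym : ∀ x v w, ⟪B x v, w⟫ = ⟪v, B x w⟫
  pos : ∀ x v, v ≠ 0 → 0 < ⟪v, B x v⟫
  a0 : ∀ x, 0 < a x
  cB : Mv 𝒰 O (fun i => (S i).B) B
  dB : Mv 𝒰 O (fun i => fderiv ℝ (S i).B) (fderiv ℝ B)
  ca : Mv 𝒰 O (fun i => (S i).a) a
  da : Mv 𝒰 O (fun i => fderiv ℝ (S i).a) (fderiv ℝ a)
  cH : ∀ (x : ι → E N) (x₀ : E N), x₀ ∈ O → Tendsto x 𝒰 (𝓝 x₀) →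
    (∀ᶠ i in (𝒰 : Filter ι), (S i).Φ (x i) = 0) → Tendsto (fun i => (S i).H (x i)) 𝒰 (𝓝 (h x₀))

/-- in `W` the surfaces `S i` converge to the surface `T` -/
structure Cw (𝒰 : Ultrafilter ι) (S : ι → Surf N) (T : Surf N) (W : Set (E N)) : Prop where
  ok : T.Ok
  lim : ∀ (x : ι → E N) (x₀ : E N), x₀ ∈ W → Tendsto x 𝒰 (𝓝 x₀) →
    (∀ᶠ i in (𝒰 : Filter ι), (S i).Φ (x i) = 0) → T.Φ x₀ = 0 ∧
      Tendsto (fun i => (S i).n (x i)) 𝒰 (𝓝 (T.n x₀)) ∧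
      Tendsto (fun i => sh (S i) (x i)) 𝒰 (𝓝 (sh T x₀))
  app : ∀ x₀ ∈ W, T.Φ x₀ = 0 →
    ∃ x : ι → E N, Tendsto x 𝒰 (𝓝 x₀) ∧ ∀ᶠ i in (𝒰 : Filter ι), (S i).Φ (x i) = 0
  neg : ∀ (x : ι → E N) (x₀ : E N), x₀ ∈ W → Tendsto x 𝒰 (𝓝 x₀) → T.Φ x₀ < 0 →
    ∀ᶠ i in (𝒰 : Filter ι), (S i).Φ (x i) < 0
  pos : ∀ (x : ι → E N) (x₀ : E N), x₀ ∈ W → Tendsto x 𝒰 (𝓝 x₀) → 0 < T.Φ x₀ →
    ∀ᶠ i in (𝒰 : Filter ι), 0 < (S i).Φ (x i)
  mu : ∀ ψ : E N → ℝ, Continuous ψ → tsupport ψ ⊆ W →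
    Tendsto (fun i => ∫ x, ψ x ∂(S i).μ) 𝒰 (𝓝 (∫ x, ψ x ∂T.μ))

/-- the graph of `w` over the hyperplane through `p` -/
def gs (p e : E (m + 1)) (L : E m →ₗᵢ[ℝ] E (m + 1)) (w : E m → ℝ) (B : E (m + 1) → En (m + 1))
    (a : E (m + 1) → ℝ) : Surf (m + 1) := gsurf e L (fun y => ⟪e, p⟫ + w (y - adj L p)) B a

variable {p e : E (m + 1)} {L : E m →ₗᵢ[ℝ] E (m + 1)} {c : ℝ} {B : E (m + 1) → En (m + 1)}
  {a h : E (m + 1) → ℝ}

theorem gs_Φ (w : E m → ℝ) (x : E (m + 1)) :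
    (gs p e L w B a).Φ x = ⟪e, x - p⟫ - w (adj L (x - p)) := by
  simp only [gs, gsurf, inner_sub_right, map_sub]; ring

theorem dec' (hF : Fr e L) (p x : E (m + 1)) : p + L (adj L (x - p)) + ⟪e, x - p⟫ • e = x := by
  rw [add_assoc, hF.dec, add_sub_cancel]

theorem gs_pt (hF : Fr e L) (w : E m → ℝ) (y : E m) (s : ℝ) :
    (gs p e L w B a).Φ (p + L y + s • e) = s - w y := by
  rw [gs_Φ, add_assoc, add_sub_cancel_left, hF.adj_pt, hF.e_pt]

theorem gs_gr (hF : Fr e L) (w : E m → ℝ) (c : ℝ) : Gr (gs p e L w B a) p e L c w :=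
  fun y s _ _ => by rw [gs_pt hF]; exact ⟨sub_neg, sub_eq_zero⟩

theorem cyl_iff (hF : Fr e L) {x : E (m + 1)} :
    x ∈ cyl p e L c ↔ ‖adj L (x - p)‖ < c ∧ |⟪e, x - p⟫| < c := by
  rw [← hF.mem_cyl (p := p), dec' hF]

theorem isOpen_cyl (hF : Fr e L) : IsOpen (cyl p e L c) := by
  rw [show cyl p e L c = {x | ‖adj L (x - p)‖ < c} ∩ {x | |⟪e, x - p⟫| < c} from
    Set.ext fun _ => cyl_iff hF]
  exact (isOpen_lt (by fun_prop) continuous_const).inter (isOpen_lt (by fun_prop) continuous_const)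

theorem cyl_mono {c' : ℝ} (hc : c ≤ c') : cyl p e L c ⊆ cyl p e L c' :=
  fun _ ⟨y, s, h1, h2, h3⟩ => ⟨y, s, h1.trans_le hc, h2.trans_le hc, h3⟩

theorem self_mem_cyl (hc : 0 < c) : p ∈ cyl p e L c := ⟨0, 0, by simpa, by simpa, by simp⟩

theorem cyl_sub_ball (hF : Fr e L) : cyl p e L c ⊆ ball p (2 * c) := by
  rintro _ ⟨y, s, h1, h2, rfl⟩
  rw [mem_ball, dist_eq_norm, add_assoc, add_sub_cancel_left]
  refine (norm_add_le _ _).trans_lt ?_
  rw [norm_smul, hF.one, L.norm_map, Real.norm_eq_abs]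
  linarith

theorem lip_of_grad {w : E m → ℝ} (hw : Differentiable ℝ w) {K : ℝ}
    (h : ∀ y, ‖gradient w y‖ ≤ K) (y z : E m) : |w y - w z| ≤ K * ‖y - z‖ :=
  convex_univ.norm_image_sub_le_of_norm_fderiv_le (fun x _ => hw x)
    (fun x _ => norm_gradient w x ▸ h x) (mem_univ z) (mem_univ y)

theorem exists_cutoff {w : E m → ℝ} (hc : 0 < c) (hw : ContDiffOn ℝ ∞ w (ball 0 c)) :
    ∃ w' : E m → ℝ, Smooth w' ∧ ∀ y, ‖y‖ ≤ c / 2 → w' =ᶠ[𝓝 y] w := by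
  let ζ : ContDiffBump (0 : E m) := ⟨3 * c / 5, 4 * c / 5, by positivity, by linarith⟩
  refine ⟨fun y => ζ y * w y, contDiff_iff_contDiffAt.2 fun y => ?_, fun y hy => ?_⟩
  · by_cases hy : y ∈ ball (0 : E m) c
    · exact ζ.contDiffAt.mul (hw.contDiffAt (isOpen_ball.mem_nhds hy))
    · have : y ∉ tsupport ζ := by
        rw [ζ.tsupport_eq]
        exact fun h => hy (closedBall_subset_ball (by simp only [ζ]; linarith) h)
      refine (contDiffAt_const (c := 0)).congr_of_eventuallyEq ?_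
      filter_upwards [notMem_tsupport_iff_eventuallyEq.1 this] with z hz
      simp [hz]
  · filter_upwards [ζ.eventuallyEq_one_of_mem_ball (x := y)
      (mem_ball_zero_iff.2 (by simp only [ζ]; linarith))] with z hz
    simp [hz]

theorem Gr.mono {S : Surf (m + 1)} {w : E m → ℝ} {c' : ℝ} (h : Gr S p e L c w) (hc : c' ≤ c) :
    Gr S p e L c' w := fun y s h1 h2 => h y s (h1.trans_le hc) (h2.trans_le hc)

theorem Gr.pos {S : Surf (m + 1)} {w : E m → ℝ} (h : Gr S p e L c w) {y : E m} {s : ℝ}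
    (h1 : ‖y‖ < c) (h2 : |s| < c) (h3 : w y < s) : 0 < S.Φ (p + L y + s • e) := by
  rcases lt_trichotomy (S.Φ (p + L y + s • e)) 0 with h4 | h4 | h4
  · exact absurd ((h y s h1 h2).1.1 h4) h3.not_gt
  · exact absurd ((h y s h1 h2).2.1 h4) h3.ne'
  · exact h4

variable {𝒰 : Ultrafilter ι} {S : ι → Surf (m + 1)} {O : Set (E (m + 1))} {w : ι → E m → ℝ}

theorem lim_gam {w₀ : E m → ℝ} {U : Set (E m)} (m0 : Mv 𝒰 U w w₀) {y : ι → E m} {y₀ : E m}
    (hU : y₀ ∈ U) (hy : Tendsto y 𝒰 (𝓝 y₀)) :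
    Tendsto (fun i => gam e L p (w i) (y i)) 𝒰 (𝓝 (gam e L p w₀ y₀)) :=
  (tendsto_const_nhds.add ((L.continuous.tendsto _).comp hy)).add
    ((m0 y y₀ hU hy).smul_const e)

/-- the limit of graphs is a smooth graph -/
theorem Cv.smooth {α A : ℝ} (hC : Cv 𝒰 S O B a h) (hF : Fr e L) (hα : α ∈ Ioo (0 : ℝ) 1)
    (hc : 0 < c) (hO : cyl p e L c ⊆ O) (hw : ∀ᶠ i in (𝒰 : Filter ι), C2H α A (w i) ∧
      (∀ y, ‖gradient (w i) y‖ ≤ 1 / 2) ∧ Gr (S i) p e L c (w i))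
    (h0 : Tendsto (fun i => w i 0) 𝒰 (𝓝 0)) : ∃ w₀ : E m → ℝ, Smooth w₀ ∧
      (∀ y, ‖y‖ ≤ c / 2 → |w₀ y| ≤ ‖y‖ / 2 ∧ ‖gradient w₀ y‖ ≤ 1 / 2) ∧
      Mv 𝒰 (closedBall 0 (c / 2)) w w₀ ∧
      Mv 𝒰 (closedBall 0 (c / 2)) (fun i => gradient (w i)) (gradient w₀) ∧
      Mv 𝒰 (closedBall 0 (c / 2)) (fun i => fderiv ℝ (gradient (w i))) (fderiv ℝ (gradient w₀)) := by
  obtain ⟨w₁, c1, m0, m1, m2⟩ := c2h_lim' 𝒰 hα.1 (hw.mono fun _ hi => hi.1)
  have g1 : ∀ y, ‖gradient w₁ y‖ ≤ 1 / 2 := fun y =>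
    le_of_tendsto (m1.pt (mem_univ y)).norm (hw.mono fun i hi => hi.2.1 y)
  have b1 : ∀ y, |w₁ y| ≤ ‖y‖ / 2 := fun y => by
    have := lip_of_grad (c1.1.differentiable two_ne_zero) g1 y 0
    rw [tendsto_nhds_unique (m0.pt (mem_univ 0)) h0] at this
    simpa [div_eq_inv_mul] using this
  have sm : ContDiffOn ℝ ∞ w₁ (ball 0 c) := by
    have x1 : ContDiff ℝ ∞ fun z : E m × ℝ × E m => p + L z.1 + z.2.1 • e :=
      (contDiff_const.add (L.toContinuousLinearMap.contDiff.comp contDiff_fst)).add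
        (contDiff_snd.fst.smul contDiff_const)
    refine regq_loc (a := fun z => aJ e L (B (p + L z.1 + z.2.1 • e)) z.2.2)
      (b := fun z => bJ e L (B (p + L z.1 + z.2.1 • e)) (fderiv ℝ B (p + L z.1 + z.2.1 • e))
        (a (p + L z.1 + z.2.1 • e)) (fderiv ℝ a (p + L z.1 + z.2.1 • e)) z.2.2
        - h (p + L z.1 + z.2.1 • e)) hα isOpen_ball c1 ?_ ?_
      (fun y _ ξ hξ => aJ_pos hF (hC.sym _) (hC.pos _) _ hξ) fun y hy => ?_
    · exact contDiff_iff_contDiffAt.2 fun z => sm_aJ (hC.smB.comp x1).contDiffAt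
        contDiffAt_snd.snd (WJ_pos hF (hC.pos _) _)
    · exact contDiff_iff_contDiffAt.2 fun z => (sm_bJ (hC.smB.comp x1).contDiffAt
        contDiffAt_snd.snd (WJ_pos hF (hC.pos _) _)
        ((hC.smB.fderiv_right (m := ∞) (by simp)).comp x1).contDiffAt (hC.sma.comp x1).contDiffAt
        ((hC.sma.fderiv_right (m := ∞) (by simp)).comp x1).contDiffAt (hC.a0 _).ne').sub
          (hC.smh.comp x1).contDiffAt
    · rw [mem_ball_zero_iff] at hy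
      have y1 : |w₁ y| < c := (b1 y).trans_lt (by linarith)
      have x2 := lim_gam (e := e) (L := L) (p := p) m0 (mem_univ y) tendsto_const_nhds
      have x3 : gam e L p w₁ y ∈ O := hO (hF.mem_cyl.2 ⟨hy, y1⟩)
      have y2 := (m0.pt (mem_univ y)).abs.eventually (gt_mem_nhds y1)
      have l1 := hC.cH _ _ x3 x2 (by
        filter_upwards [hw, y2] with i hi h2 using (hi.2.2 y _ hy h2).2.2 rfl)
      have W0 := WJ_pos hF (hC.pos (gam e L p w₁ y)) (gradient w₁ y)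
      have l2 := (lim_bJ (hC.cB _ _ x3 x2) (m1.pt (mem_univ y)) W0 (hC.dB _ _ x3 x2)
        (hC.ca _ _ x3 x2) (hC.da _ _ x3 x2) (hC.a0 _).ne').sub (tendsto_finsetSum Finset.univ
          fun j _ => ((EuclideanSpace.proj j : E (m + 1) →L[ℝ] ℝ).continuous.tendsto _).comp
            (lim_t (hC.cB _ _ x3 x2) (m1.pt (mem_univ y)) W0 (m2.pt (mem_univ y))
              (EuclideanSpace.single j 1)))
      have l3 := tendsto_nhds_unique l1 (l2.congr' (by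
        filter_upwards [hw, y2, hC.ok] with i hi h2 h3
        rw [H_jet hi.2.2 h3 hF hi.1.1 hy h2, pr2_aJ, ← hess_eq hi.1.1]; rfl))
      rw [pr2_aJ, ← hess_eq c1.1]
      simp only [gam] at l3
      rw [l3]
      simp
  obtain ⟨w₀, s0, e0⟩ := exists_cutoff hc sm
  have e1 : ∀ y, ‖y‖ ≤ c / 2 → gradient w₀ =ᶠ[𝓝 y] gradient w₁ := fun y hy =>
    (e0 y hy).eventuallyEq_nhds.mono fun z hz => hz.gradient_eq
  refine ⟨w₀, s0, fun y hy => ?_, fun y y₀ a b => ?_, fun y y₀ a b => ?_, fun y y₀ a b => ?_⟩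
  · rw [(e0 y hy).self_of_nhds, (e1 y hy).self_of_nhds]
    exact ⟨b1 y, g1 y⟩
  · rw [(e0 y₀ (mem_closedBall_zero_iff.1 a)).self_of_nhds]
    exact m0 y y₀ trivial b
  · rw [(e1 y₀ (mem_closedBall_zero_iff.1 a)).self_of_nhds]
    exact m1 y y₀ trivial b
  · rw [(e1 y₀ (mem_closedBall_zero_iff.1 a)).fderiv_eq]
    exact m2 y y₀ trivial b

/-- convergence of the graphs gives convergence of the surfaces -/
theorem Cv.cw {w₀ : E m → ℝ} (hC : Cv 𝒰 S O B a h) (hF : Fr e L) (hc : 0 < c)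
    (hO : cyl p e L c ⊆ O)
    (hw : ∀ᶠ i in (𝒰 : Filter ι), ContDiff ℝ 2 (w i) ∧ Gr (S i) p e L c (w i)) (s0 : Smooth w₀)
    (b0 : ∀ y, ‖y‖ ≤ c / 2 → |w₀ y| < c) (m0 : Mv 𝒰 (closedBall 0 (c / 2)) w w₀)
    (m1 : Mv 𝒰 (closedBall 0 (c / 2)) (fun i => gradient (w i)) (gradient w₀))
    (m2 : Mv 𝒰 (closedBall 0 (c / 2)) (fun i => fderiv ℝ (gradient (w i)))
      (fderiv ℝ (gradient w₀))) : Cw 𝒰 S (gs p e L w₀ B a) (cyl p e L (c / 2)) := by
  have ok : (gs p e L w₀ B a).Ok := cap m e L _ B a hF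
    (contDiff_const.add (ContDiff.comp s0 (contDiff_id.sub contDiff_const))) hC.smB hC.sma hC.sym
    hC.pos hC.a0
  have s2 : ContDiff ℝ 2 w₀ := s0.of_le two_le_inf
  have hG := gs_gr (p := p) (B := B) (a := a) hF w₀ c
  have mv : ∀ (x : ι → E (m + 1)) (x₀ : E (m + 1)), x₀ ∈ cyl p e L (c / 2) → Tendsto x 𝒰 (𝓝 x₀) →
      Tendsto (fun i => adj L (x i - p)) 𝒰 (𝓝 (adj L (x₀ - p))) ∧
      Tendsto (fun i => ⟪e, x i - p⟫ - w i (adj L (x i - p))) 𝒰 (𝓝 ((gs p e L w₀ B a).Φ x₀)) ∧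
      ∀ᶠ i in (𝒰 : Filter ι), ‖adj L (x i - p)‖ < c ∧ |⟪e, x i - p⟫| < c := fun x x₀ hx hl => by
    have h1 := ((adj L).continuous.tendsto _).comp (hl.sub_const p)
    refine ⟨h1, ?_, (hl.eventually ((isOpen_cyl hF).mem_nhds
      (cyl_mono (half_le_self hc.le) hx))).mono fun i hi => (cyl_iff hF).1 hi⟩
    rw [gs_Φ]
    exact (tendsto_const_nhds.inner (hl.sub_const p)).sub
      (m0 _ _ (mem_closedBall_zero_iff.2 ((cyl_iff hF).1 hx).1.le) h1)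
  refine ⟨ok, fun x x₀ hx hl hz => ?_, fun x₀ hx hz => ?_, fun x x₀ hx hl hz => ?_,
    fun x x₀ hx hl hz => ?_, fun ψ hψ hs => ?_⟩
  · obtain ⟨a1, a2, a3⟩ := mv x x₀ hx hl
    have a4 : ∀ᶠ i in (𝒰 : Filter ι), ⟪e, x i - p⟫ = w i (adj L (x i - p)) := by
      filter_upwards [hw, a3, hz] with i h1 h2 h3
      exact (h1.2 _ _ h2.1 h2.2).2.1 (by rw [dec' hF]; exact h3)
    have a5 : (gs p e L w₀ B a).Φ x₀ = 0 :=
      tendsto_nhds_unique a2
        (tendsto_const_nhds.congr' (a4.mono fun i hi => by simp only [hi, sub_self]))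
    have y0 := ((cyl_iff hF).1 hx).1
    have y1 := mem_closedBall_zero_iff.2 y0.le
    have y2 : ‖adj L (x₀ - p)‖ < c := y0.trans (half_lt_self hc)
    have a6 : x₀ = gam e L p w₀ (adj L (x₀ - p)) := by
      rw [gs_Φ, sub_eq_zero] at a5
      rw [gam, ← a5, dec' hF]
    have a7 : ∀ᶠ i in (𝒰 : Filter ι), x i = gam e L p (w i) (adj L (x i - p)) :=
      a4.mono fun i hi => by rw [gam, ← hi, dec' hF]
    have xO := hO (cyl_mono (half_le_self hc.le) hx)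
    have W0 := WJ_pos hF (hC.pos x₀) (gradient w₀ (adj L (x₀ - p)))
    refine ⟨a5, ?_, tendsto_clm fun v => ?_⟩
    · have := n_jet hG ok hF (s2.differentiable two_ne_zero _) y2 (b0 _ y0.le)
      rw [← a6] at this
      rw [this]
      refine (lim_n (hC.cB x x₀ xO hl) (m1 _ _ y1 a1) W0).congr' ?_
      filter_upwards [hw, a3, a4, a7, hC.ok] with i h1 h2 h3 h4 h5
      have := n_jet h1.2 h5 hF (h1.1.differentiable two_ne_zero _) h2.1 (h3 ▸ h2.2)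
      rw [← h4] at this
      exact this.symm
    · have := sh_jet hG ok hF s2 y2 (b0 _ y0.le) v
      rw [← a6] at this
      rw [this]
      refine ((lim_s (hC.cB x x₀ xO hl) (m1 _ _ y1 a1) W0 (hC.dB x x₀ xO hl) v).sub
        (lim_t (hC.cB x x₀ xO hl) (m1 _ _ y1 a1) W0 (m2 _ _ y1 a1) v)).congr' ?_
      filter_upwards [hw, a3, a4, a7, hC.ok] with i h1 h2 h3 h4 h5
      have := sh_jet h1.2 h5 hF h1.1 h2.1 (h3 ▸ h2.2) v
      rw [← h4] at this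
      exact this.symm
  · have y0 := ((cyl_iff hF).1 hx).1
    have y1 := mem_closedBall_zero_iff.2 y0.le
    refine ⟨fun i => gam e L p (w i) (adj L (x₀ - p)), ?_, ?_⟩
    · rw [gs_Φ, sub_eq_zero] at hz
      have := lim_gam (e := e) (L := L) (p := p) m0 y1 tendsto_const_nhds
      rwa [gam, ← hz, dec' hF] at this
    · filter_upwards [hw, (m0.pt y1).abs.eventually (gt_mem_nhds (b0 _ y0.le))] with i h1 h2
      exact (h1.2 _ _ (y0.trans (half_lt_self hc)) h2).2.2 rfl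
  · obtain ⟨-, a2, a3⟩ := mv x x₀ hx hl
    filter_upwards [hw, a3, a2.eventually (gt_mem_nhds hz)] with i h1 h2 h3
    have := (h1.2 _ _ h2.1 h2.2).1.2 (sub_neg.1 h3)
    rwa [dec' hF] at this
  · obtain ⟨-, a2, a3⟩ := mv x x₀ hx hl
    filter_upwards [hw, a3, a2.eventually (lt_mem_nhds hz)] with i h1 h2 h3
    have := Gr.pos h1.2 h2.1 h2.2 (sub_pos.1 h3)
    rwa [dec' hF] at this
  · have hs' := hs.trans (cyl_mono (half_le_self hc.le))
    have z0 : ∀ (u : E m → ℝ) (y : E m), y ∉ closedBall (0 : E m) (c / 2) →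
        ψ (gam e L p u y) = 0 := fun u y hy => by_contra fun h0 =>
      hy (mem_closedBall_zero_iff.2 (hF.mem_cyl.1 (hs (subset_tsupport _ h0))).1.le)
    have ct : ∀ (T : Surf (m + 1)) (u : E m → ℝ), T.Ok → ContDiff ℝ 2 u → Continuous fun y =>
        ψ (gam e L p u y) * (T.a (gam e L p u y) * WJ e L (T.B (gam e L p u y)) (gradient u y)) :=
      fun T u hT hu => by
        have := hu.continuous
        have := (contDiff_gradient (k := 1) (by exact hu)).continuous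
        have := hT.sma.continuous
        have := hT.smB.continuous
        unfold WJ gam
        fun_prop
    rw [(area m _ p e L c w₀ ok hF s2 hG).2 ψ hψ hs']
    refine (P366L.Vg.tendsto (m := fun _ : ι => (volume : Measure (E m))) (l := 𝒰)
      (φ := fun i y => ψ (gam e L p (w i) y) * ((S i).a (gam e L p (w i) y) *
        WJ e L ((S i).B (gam e L p (w i) y)) (gradient (w i) y)))
      (fun _ _ _ => tendsto_const_nhds) (isCompact_closedBall 0 (c / 2))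
      (fun K hK => .of_forall fun _ => hK.measure_lt_top) (ct _ w₀ ok s2)
      (fun y hy => by rw [z0 _ y hy, zero_mul]) ?_
      (.of_forall fun i => .of_forall fun y hy => by simp only [z0 _ y hy, zero_mul])
      fun ε hε => ?_).congr' ?_
    · filter_upwards [hw, hC.ok] with i h1 h2 using (ct _ _ h2 h1.1).aestronglyMeasurable
    · have := Mv.unif (f := fun i y => ψ (gam e L p (w i) y) * ((S i).a (gam e L p (w i) y) *
          WJ e L ((S i).B (gam e L p (w i) y)) (gradient (w i) y))) (fun y y₀ h1 h2 => by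
          have x2 := lim_gam (e := e) (L := L) (p := p) m0 h1 h2
          have h3 := mem_closedBall_zero_iff.1 h1
          have x3 : gam e L p w₀ y₀ ∈ O :=
            hO (hF.mem_cyl.2 ⟨h3.trans_lt (half_lt_self hc), b0 _ h3⟩)
          exact ((hψ.tendsto _).comp x2).mul ((hC.ca _ _ x3 x2).mul
            (lim_W (hC.cB _ _ x3 x2) (m1 _ _ h1 h2))))
        (isCompact_closedBall 0 (c / 2)) Subset.rfl fun y _ => (ct _ w₀ ok s2).continuousAt
      filter_upwards [Metric.tendstoUniformlyOn_iff.1 this ε hε] with i hi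
      refine .of_forall fun y => ?_
      by_cases hy : y ∈ closedBall (0 : E m) (c / 2)
      · rw [abs_sub_comm]; exact (hi y hy).le
      · simp only [z0 _ y hy, zero_mul, sub_zero, abs_zero, hε.le]
    · filter_upwards [hw, hC.ok] with i h1 h2
      exact ((area m _ p e L c _ h2 hF h1.1 h1.2).2 ψ hψ hs').symm

theorem Cw.lim_ν {T : Surf N} {S : ι → Surf N} {W O : Set (E N)} {a h : E N → ℝ}
    (hW : Cw 𝒰 S T W) (hC : Cv 𝒰 S O T.B a h) {x : ι → E N} {x₀ : E N} (h1 : x₀ ∈ W) (h2 : x₀ ∈ O)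
    (hl : Tendsto x 𝒰 (𝓝 x₀)) (hz : ∀ᶠ i in (𝒰 : Filter ι), (S i).Φ (x i) = 0) :
    Tendsto (fun i => (S i).ν (x i)) 𝒰 (𝓝 (T.ν x₀)) :=
  lim_app (hC.cB x x₀ h2 hl) (hW.lim x x₀ h1 hl hz).2.1

theorem Cw.lim_A2 {T : Surf N} {S : ι → Surf N} {W : Set (E N)} (hW : Cw 𝒰 S T W) {x : ι → E N}
    {x₀ : E N} (h1 : x₀ ∈ W) (hl : Tendsto x 𝒰 (𝓝 x₀))
    (hz : ∀ᶠ i in (𝒰 : Filter ι), (S i).Φ (x i) = 0) :
    Tendsto (fun i => (S i).A2 (x i)) 𝒰 (𝓝 (T.A2 x₀)) := by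
  have := (hW.lim x x₀ h1 hl hz).2.2
  simp only [A2_sh]
  refine (continuous_trc.tendsto _).comp (tendsto_clm fun v => ?_)
  simp only [ContinuousLinearMap.comp_apply (sh _ _)]
  exact lim_app this (lim_app this tendsto_const_nhds)

theorem Cw.H_eq {T : Surf N} {S : ι → Surf N} {W O : Set (E N)} {h : E N → ℝ}
    (hW : Cw 𝒰 S T W) (hC : Cv 𝒰 S O T.B T.a h) {x₀ : E N} (h1 : x₀ ∈ W) (h2 : x₀ ∈ O)
    (h0 : T.Φ x₀ = 0) : T.H x₀ = h x₀ := by
  obtain ⟨x, hl, hz⟩ := hW.app x₀ h1 h0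
  obtain ⟨-, a1, a2⟩ := hW.lim x x₀ h1 hl hz
  have a3 := hW.lim_ν hC h1 h2 hl hz
  refine tendsto_nhds_unique ?_ (hC.cH x x₀ h2 hl hz)
  rw [H_sh hW.ok]
  refine ((((lim_app (hC.da x x₀ h2 hl) a3).div (hC.ca x x₀ h2 hl) (hC.a0 _).ne').add
    ((continuous_trc.tendsto _).comp a2)).add
      ((a1.inner (lim_app (lim_app (hC.dB x x₀ h2 hl) a3) a1)).div_const 2)).congr' ?_
  exact hC.ok.mono fun i hi => (H_sh hi _).symm

end Vale.Agent.P366R
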