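import Vale.Agent.P366W.Cap
import Vale.Agent.P366W.Fv

/-!
# P366R: the geometry of a graph as a function of the jets
-/

open MeasureTheory Metric Filter Topology Set
open scoped ContDiff ENNReal RealInnerProductSpace
open Vale.Agent.P366.Stmt Vale.Agent.P366Y Vale.Agent.P366W

noncomputable section

namespace Vale.Agent.P366R

variable {N m : ℕ}

/-- linear maps -/
abbrev En (N : ℕ) := E N →L[ℝ] E N

/-- the shape operator -/
def sh (S : Surf N) (x : E N) : En N := fderiv ℝ S.ν x ∘L S.P x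

theorem A2_sh (S : Surf N) (x : E N) : S.A2 x = trc (sh S x ∘L sh S x) := rfl

theorem H_sh {S : Surf N} (h : S.Ok) (x : E N) : S.H x = fderiv ℝ S.a x (S.ν x) / S.a x
    + trc (sh S x) + ⟪S.n x, fderiv ℝ S.B x (S.ν x) (S.n x)⟫ / 2 := by
  have h1 : fderiv ℝ S.ν x = sh S x + (innerSL ℝ (S.n x)).smulRight (fderiv ℝ S.ν x (S.ν x)) := by
    ext1 v
    simp [sh, Surf.P_apply]
  have h2 := (h.a0 x).ne'
  rw [Surf.H, dvg_smul (h.da x) (h.dν x), dvg_eq, ← h.n_dν]
  conv_lhs => rw [h1, trc_add, trc_smulRight, innerSL_apply_apply]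
  field_simp
  ring

theorem tendsto_clm {ι F : Type} [NormedAddCommGroup F] [NormedSpace ℝ F] {l : Filter ι}
    {M : ι → E N →L[ℝ] F} {M₀ : E N →L[ℝ] F} (h : ∀ v, Tendsto (fun i => M i v) l (𝓝 (M₀ v))) :
    Tendsto M l (𝓝 M₀) := by
  have e : ∀ A : E N →L[ℝ] F, A = ∑ j, ContinuousLinearMap.smulRightL ℝ (E N) F
      (EuclideanSpace.proj j) (A (EuclideanSpace.single j 1)) := fun A => by
    ext1 v
    rw [map_eq_sum A v]
    simp
  rw [e M₀, funext fun i => e (M i)]
  exact tendsto_finsetSum _ fun j _ => ((ContinuousLinearMap.smulRightL ℝ (E N) F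
    (EuclideanSpace.proj j)).continuous.tendsto _).comp (h _)

variable (e : E (m + 1)) (L : E m →ₗᵢ[ℝ] E (m + 1))

/-- the area element -/
def WJ (B : En (m + 1)) (q : E m) : ℝ := √⟪e - L q, B (e - L q)⟫

/-- the conormal -/
def nJ (B : En (m + 1)) (q : E m) : E (m + 1) := (WJ e L B q)⁻¹ • (e - L q)

/-- the projection -/
def PJ (B : En (m + 1)) (q : E m) (v : E (m + 1)) : E (m + 1) :=
  v - ⟪nJ e L B q, v⟫ • B (nJ e L B q)

/-- the shape operator: the part which contains the derivative of the metric -/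
def sJ (B : En (m + 1)) (B' : E (m + 1) →L[ℝ] En (m + 1)) (q : E m) (v : E (m + 1)) : E (m + 1) :=
  B' (PJ e L B q v) (nJ e L B q) -
    (⟪nJ e L B q, B' (PJ e L B q v) (nJ e L B q)⟫ / 2) • B (nJ e L B q)

/-- the shape operator: the part which contains the Hessian -/
def tJ (B : En (m + 1)) (q : E m) (Q : En m) (v : E (m + 1)) : E (m + 1) :=
  (WJ e L B q)⁻¹ • PJ e L B q (B (L (Q (adj L (PJ e L B q v)))))

/-- the point of the graph -/
def gam (p : E (m + 1)) (w : E m → ℝ) (y : E m) : E (m + 1) := p + L y + w y • e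

variable {e L} {S : Surf (m + 1)} {p : E (m + 1)} {c : ℝ} {w : E m → ℝ} {y : E m}

theorem hasFDerivAt_gam (hw : DifferentiableAt ℝ w y) : HasFDerivAt (gam e L p w)
    (L.toContinuousLinearMap + (fderiv ℝ w y).smulRight e) y :=
  (L.toContinuousLinearMap.hasFDerivAt.const_add p).add (hw.hasFDerivAt.smul_const e)

theorem WJ_pos (h : Fr e L) {B : En (m + 1)} (hB : ∀ v, v ≠ 0 → 0 < ⟪v, B v⟫) (q : E m) :
    0 < WJ e L B q := Real.sqrt_pos.2 (hB _ (h.ne q))

theorem n_jet (hG : Gr S p e L c w) (hS : S.Ok) (h : Fr e L) (hw : DifferentiableAt ℝ w y)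
    (hy : ‖y‖ < c) (hwy : |w y| < c) :
    S.n (gam e L p w y) = nJ e L (S.B (gam e L p w y)) (gradient w y) := hG.n_eq hS h hw hy hwy

theorem P_jet (hG : Gr S p e L c w) (hS : S.Ok) (h : Fr e L) (hw : DifferentiableAt ℝ w y)
    (hy : ‖y‖ < c) (hwy : |w y| < c) (v : E (m + 1)) :
    S.P (gam e L p w y) v = PJ e L (S.B (gam e L p w y)) (gradient w y) v := by
  rw [Surf.P_apply, Surf.ν, n_jet hG hS h hw hy hwy, PJ]

theorem sh_jet (hG : Gr S p e L c w) (hS : S.Ok) (h : Fr e L) (hw : ContDiff ℝ 2 w)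
    (hy : ‖y‖ < c) (hwy : |w y| < c) (v : E (m + 1)) :
    sh S (gam e L p w y) v = sJ e L (S.B (gam e L p w y)) (fderiv ℝ S.B (gam e L p w y))
      (gradient w y) v - tJ e L (S.B (gam e L p w y)) (gradient w y)
        (fderiv ℝ (gradient w) y) v := by
  have hd : Differentiable ℝ w := hw.differentiable two_ne_zero
  have hg : Differentiable ℝ (gradient w) :=
    (contDiff_gradient (k := 1) (by exact hw)).differentiable one_ne_zero
  have hn := n_jet hG hS h (hd y) hy hwy
  have hP := P_jet hG hS h (hd y) hy hwy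
  set x := gam e L p w y with hx
  set u := S.P x v with hu
  have hW := WJ_pos h (hS.pos x) (gradient w y)
  have t0 : ⟪S.n x, u⟫ = 0 := by
    rw [hu, Surf.P_apply, inner_sub_right, real_inner_smul_right, hS.nν]; ring
  have t1 : (L.toContinuousLinearMap + (fderiv ℝ w y).smulRight e) (adj L u) = u := by
    have : ⟪e - L (gradient w y), u⟫ = 0 := by
      rw [hn, nJ, real_inner_smul_left] at t0
      exact (mul_eq_zero.1 t0).resolve_left (inv_ne_zero hW.ne')
    rw [inner_sub_left, ← inner_adj, inner_grad, sub_eq_zero] at this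
    simp only [add_apply, LinearIsometry.coe_toContinuousLinearMap,
      ContinuousLinearMap.smulRight_apply, ← this, h.dec]
  have d1 : DifferentiableAt ℝ (fun z => (WJ e L (S.B (gam e L p w z)) (gradient w z))⁻¹) y := by
    have a1 : DifferentiableAt ℝ (fun z => e - L (gradient w z)) y :=
      (L.toContinuousLinearMap.differentiableAt.comp y (hg y)).const_sub e
    have a2 : DifferentiableAt ℝ (fun z => S.B (gam e L p w z)) y :=
      (hS.dB _).comp y (hasFDerivAt_gam (hd y)).differentiableAt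
    exact ((a1.inner ℝ (a2.clm_apply a1)).sqrt (hS.pos x _ (h.ne _)).ne').inv hW.ne'
  have d2 := d1.hasFDerivAt.smul
    ((L.toContinuousLinearMap.hasFDerivAt.comp y (hg y).hasFDerivAt).const_sub e)
  have d3 := (hS.dn x).hasFDerivAt.comp y (hasFDerivAt_gam (p := p) (e := e) (L := L) (hd y))
  have d4 := congrArg (fun M => M (adj L u)) (d3.unique (d2.congr_of_eventuallyEq (by
    filter_upwards [continuous_norm.continuousAt.eventually (gt_mem_nhds hy),
      hd.continuous.continuousAt.abs.eventually (gt_mem_nhds hwy)] with z h1 h2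
    exact n_jet hG hS h (hd z) h1 h2)))
  simp only [ContinuousLinearMap.comp_apply, t1, add_apply, smul_apply, neg_apply,
    ContinuousLinearMap.smulRight_apply, LinearIsometry.coe_toContinuousLinearMap,
    Function.comp, ← hx] at d4
  set W := WJ e L (S.B x) (gradient w y) with hWd
  set l := fderiv ℝ (fun z => (WJ e L (S.B (gam e L p w z)) (gradient w z))⁻¹) y (adj L u)
  set r := L (fderiv ℝ (gradient w) y (adj L u)) with hr
  have d5 : e - L (gradient w y) = W • S.n x := by
    rw [hn, nJ, smul_smul, mul_inv_cancel₀ hW.ne', one_smul]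
  rw [d5, smul_smul] at d4
  have d6 := hS.ν_dn x u
  rw [d4, inner_add_right, real_inner_smul_right, real_inner_smul_right, inner_neg_right,
    real_inner_comm (S.n x), hS.nν] at d6
  have d7 : l * W = W⁻¹ * ⟪S.n x, S.B x r⟫ - ⟪S.n x, fderiv ℝ S.B x u (S.n x)⟫ / 2 := by
    rw [← hS.sym, ← Surf.ν]; linarith
  rw [sh, ContinuousLinearMap.comp_apply, ← hu, hS.fderiv_ν, d4, d7, sJ, tJ, ← hP, ← hP, ← hu,
    ← hn, ← hr, Surf.P_apply, Surf.ν]
  simp only [map_add, map_smul, map_neg]
  module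

end Vale.Agent.P366R
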