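import Vale.Agent.P366R.C2

/-!
# P366R: smoothness of the jet functions, and the equation of a graph
-/

open MeasureTheory Metric Filter Topology Set
open scoped ContDiff ENNReal RealInnerProductSpace
open Vale.Agent.P366.Stmt Vale.Agent.P366Y Vale.Agent.P366W

noncomputable section

namespace Vale.Agent.P366R

variable {m : ℕ} {e : E (m + 1)} {L : E m →ₗᵢ[ℝ] E (m + 1)}

section Sm

variable {X : Type} [NormedAddCommGroup X] [NormedSpace ℝ X] {k : WithTop ℕ∞} {x : X}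
  {B : X → En (m + 1)} {B' : X → E (m + 1) →L[ℝ] En (m + 1)} {q : X → E m} {Q : X → En m}
  {v : X → E (m + 1)}

theorem sm_W (hB : ContDiffAt ℝ k B x) (hq : ContDiffAt ℝ k q x) (h0 : 0 < WJ e L (B x) (q x)) :
    ContDiffAt ℝ k (fun x => WJ e L (B x) (q x)) x := by
  have h1 : ContDiffAt ℝ k (fun x => e - L (q x)) x :=
    contDiffAt_const.sub (L.toContinuousLinearMap.contDiff.contDiffAt.comp x hq)
  exact (h1.inner ℝ (hB.clm_apply h1)).sqrt (Real.sqrt_pos.1 h0).ne'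

theorem sm_n (hB : ContDiffAt ℝ k B x) (hq : ContDiffAt ℝ k q x) (h0 : 0 < WJ e L (B x) (q x)) :
    ContDiffAt ℝ k (fun x => nJ e L (B x) (q x)) x :=
  ((sm_W hB hq h0).inv h0.ne').smul
    (contDiffAt_const.sub (L.toContinuousLinearMap.contDiff.contDiffAt.comp x hq))

theorem sm_P (hB : ContDiffAt ℝ k B x) (hq : ContDiffAt ℝ k q x) (h0 : 0 < WJ e L (B x) (q x))
    (hv : ContDiffAt ℝ k v x) : ContDiffAt ℝ k (fun x => PJ e L (B x) (q x) (v x)) x :=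
  hv.sub (((sm_n hB hq h0).inner ℝ hv).smul (hB.clm_apply (sm_n hB hq h0)))

theorem sm_s (hB : ContDiffAt ℝ k B x) (hq : ContDiffAt ℝ k q x) (h0 : 0 < WJ e L (B x) (q x))
    (hB' : ContDiffAt ℝ k B' x) (hv : ContDiffAt ℝ k v x) :
    ContDiffAt ℝ k (fun x => sJ e L (B x) (B' x) (q x) (v x)) x := by
  have h1 := sm_n hB hq h0
  have h2 := (hB'.clm_apply (sm_P hB hq h0 hv)).clm_apply h1
  exact h2.sub (((h1.inner ℝ h2).div_const 2).smul (hB.clm_apply h1))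

theorem sm_t (hB : ContDiffAt ℝ k B x) (hq : ContDiffAt ℝ k q x) (h0 : 0 < WJ e L (B x) (q x))
    (hQ : ContDiffAt ℝ k Q x) (hv : ContDiffAt ℝ k v x) :
    ContDiffAt ℝ k (fun x => tJ e L (B x) (q x) (Q x) (v x)) x :=
  ((sm_W hB hq h0).inv h0.ne').smul (sm_P hB hq h0 (hB.clm_apply
    (L.toContinuousLinearMap.contDiff.contDiffAt.comp x (hQ.clm_apply
      ((adj L).contDiff.contDiffAt.comp x (sm_P hB hq h0 hv))))))

end Sm

section Lim

variable {ι : Type} {l : Filter ι} {B : ι → En (m + 1)} {B' : ι → E (m + 1) →L[ℝ] En (m + 1)}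
  {q : ι → E m} {Q : ι → En m} {B₀ : En (m + 1)} {B₀' : E (m + 1) →L[ℝ] En (m + 1)} {q₀ : E m}
  {Q₀ : En m}

theorem lim_app {F G : Type} [NormedAddCommGroup F] [NormedSpace ℝ F] [NormedAddCommGroup G]
    [NormedSpace ℝ G] {f : ι → F →L[ℝ] G} {f₀ : F →L[ℝ] G} {v : ι → F} {v₀ : F}
    (hf : Tendsto f l (𝓝 f₀)) (hv : Tendsto v l (𝓝 v₀)) :
    Tendsto (fun i => f i (v i)) l (𝓝 (f₀ v₀)) :=
  (isBoundedBilinearMap_apply.continuous.tendsto (f₀, v₀)).comp (hf.prodMk_nhds hv)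

theorem lim_m (hq : Tendsto q l (𝓝 q₀)) : Tendsto (fun i => e - L (q i)) l (𝓝 (e - L q₀)) :=
  tendsto_const_nhds.sub ((L.continuous.tendsto _).comp hq)

theorem lim_W (hB : Tendsto B l (𝓝 B₀)) (hq : Tendsto q l (𝓝 q₀)) :
    Tendsto (fun i => WJ e L (B i) (q i)) l (𝓝 (WJ e L B₀ q₀)) :=
  ((lim_m hq).inner (lim_app hB (lim_m hq))).sqrt

theorem lim_n (hB : Tendsto B l (𝓝 B₀)) (hq : Tendsto q l (𝓝 q₀)) (h0 : 0 < WJ e L B₀ q₀) :
    Tendsto (fun i => nJ e L (B i) (q i)) l (𝓝 (nJ e L B₀ q₀)) :=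
  ((lim_W hB hq).inv₀ h0.ne').smul (lim_m hq)

theorem lim_P (hB : Tendsto B l (𝓝 B₀)) (hq : Tendsto q l (𝓝 q₀)) (h0 : 0 < WJ e L B₀ q₀)
    {v : ι → E (m + 1)} {v₀ : E (m + 1)} (hv : Tendsto v l (𝓝 v₀)) :
    Tendsto (fun i => PJ e L (B i) (q i) (v i)) l (𝓝 (PJ e L B₀ q₀ v₀)) :=
  hv.sub (((lim_n hB hq h0).inner hv).smul (lim_app hB (lim_n hB hq h0)))

theorem lim_s (hB : Tendsto B l (𝓝 B₀)) (hq : Tendsto q l (𝓝 q₀)) (h0 : 0 < WJ e L B₀ q₀)
    (hB' : Tendsto B' l (𝓝 B₀')) (v : E (m + 1)) :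
    Tendsto (fun i => sJ e L (B i) (B' i) (q i) v) l (𝓝 (sJ e L B₀ B₀' q₀ v)) := by
  have h1 := lim_n hB hq h0
  have h2 := lim_app (lim_app hB' (lim_P hB hq h0 (tendsto_const_nhds (x := v)))) h1
  exact h2.sub (((h1.inner h2).div_const 2).smul (lim_app hB h1))

theorem lim_t (hB : Tendsto B l (𝓝 B₀)) (hq : Tendsto q l (𝓝 q₀)) (h0 : 0 < WJ e L B₀ q₀)
    (hQ : Tendsto Q l (𝓝 Q₀)) (v : E (m + 1)) :
    Tendsto (fun i => tJ e L (B i) (q i) (Q i) v) l (𝓝 (tJ e L B₀ q₀ Q₀ v)) :=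
  ((lim_W hB hq).inv₀ h0.ne').smul (lim_P hB hq h0 (lim_app hB ((L.continuous.tendsto _).comp
    (lim_app hQ (((adj L).continuous.tendsto _).comp (lim_P hB hq h0 tendsto_const_nhds))))))

end Lim

variable (e L) in
/-- the coefficients of the principal part -/
def aJ (B : En (m + 1)) (q : E m) : Mx m := fun k l => ∑ j, tJ e L B q
  ((EuclideanSpace.proj k : E m →L[ℝ] ℝ).smulRight (EuclideanSpace.single l 1))
    (EuclideanSpace.single j 1) j

variable (e L) in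
/-- the terms of lower order -/
def bJ (B : En (m + 1)) (B' : E (m + 1) →L[ℝ] En (m + 1)) (a : ℝ) (a' : E (m + 1) →L[ℝ] ℝ)
    (q : E m) : ℝ := a' (B (nJ e L B q)) / a + ∑ j, sJ e L B B' q (EuclideanSpace.single j 1) j
      + ⟪nJ e L B q, B' (B (nJ e L B q)) (nJ e L B q)⟫ / 2

theorem pr2_aJ (B : En (m + 1)) (q : E m) (A : Mx m) :
    pr2 (aJ e L B q) A = ∑ j, tJ e L B q (Hs A) (EuclideanSpace.single j 1) j := by
  have h : ∀ v, tJ e L B q (Hs A) v = ∑ k, ∑ l, A k l • tJ e L B q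
      ((EuclideanSpace.proj k : E m →L[ℝ] ℝ).smulRight (EuclideanSpace.single l 1)) v := fun v => by
    generalize hu : adj L (PJ e L B q v) = u
    simp only [tJ, hu, Hs, sum_apply, smul_apply, map_sum, map_smul]
    simp only [PJ, inner_sum, real_inner_smul_right, Finset.sum_smul, ← Finset.sum_sub_distrib,
      Finset.smul_sum]
    refine Finset.sum_congr rfl fun k _ => Finset.sum_congr rfl fun l _ => ?_
    module
  simp only [pr2, aJ, h, WithLp.ofLp_sum, Finset.sum_apply, WithLp.ofLp_smul, Pi.smul_apply,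
    smul_eq_mul, Finset.sum_mul]
  conv_rhs => rw [Finset.sum_comm]
  refine Finset.sum_congr rfl fun k _ => ?_
  conv_rhs => rw [Finset.sum_comm]
  exact Finset.sum_congr rfl fun l _ => Finset.sum_congr rfl fun j _ => mul_comm _ _

theorem nBn (h : Fr e L) {B : En (m + 1)} (hp : ∀ v, v ≠ 0 → 0 < ⟪v, B v⟫) (q : E m) :
    ⟪nJ e L B q, B (nJ e L B q)⟫ = 1 := by
  have h1 := WJ_pos h hp q
  have h2 : WJ e L B q ^ 2 = _ := Real.sq_sqrt (hp _ (h.ne q)).le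
  simp only [nJ, map_smul, real_inner_smul_left, real_inner_smul_right, ← h2]
  field_simp

theorem aJ_pos (h : Fr e L) {B : En (m + 1)} (hs : ∀ v w, ⟪B v, w⟫ = ⟪v, B w⟫)
    (hp : ∀ v, v ≠ 0 → 0 < ⟪v, B v⟫) (q : E m) {ξ : E m} (hξ : ξ ≠ 0) :
    0 < ∑ i, ∑ j, aJ e L B q i j * ξ i * ξ j := by
  have h1 : ∑ i, ∑ j, aJ e L B q i j * ξ i * ξ j = pr2 (aJ e L B q) fun i j => ξ i * ξ j := by
    simp only [pr2, mul_assoc]
  have h2 : ∀ r, Hs (fun i j => ξ i * ξ j) r = ⟪ξ, r⟫ • ξ := fun r => by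
    ext j
    simp [Hs, Pi.single_apply, inner_eq_sum, Finset.sum_mul, mul_right_comm]
  have hW := WJ_pos h hp q
  have hn := nBn h hp q
  set n := nJ e L B q with hn'
  set u := L ξ with hu
  have h3 : ∀ j, tJ e L B q (Hs fun i j => ξ i * ξ j) (EuclideanSpace.single j 1) j
      = (WJ e L B q)⁻¹ * ((u j - n j * ⟪u, B n⟫) * (B u - ⟪u, B n⟫ • B n) j) := fun j => by
    simp only [tJ, h2, inner_adj, map_smul, ← hu, PJ, ← hn', inner_sub_right,
      real_inner_smul_right, EuclideanSpace.inner_single_right, PiLp.smul_apply, PiLp.sub_apply,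
      smul_eq_mul, conj_trivial, ← hs n u, real_inner_comm u (B n)]
    ring
  have h4 : ∑ j, (u j - n j * ⟪u, B n⟫) * (B u - ⟪u, B n⟫ • B n) j
      = ⟪u - ⟪u, B n⟫ • n, B (u - ⟪u, B n⟫ • n)⟫ := by
    rw [map_sub, map_smul, inner_eq_sum (u - _)]
    exact Finset.sum_congr rfl fun j _ => by simp [mul_comm]
  rw [h1, pr2_aJ]
  simp only [h3, ← Finset.mul_sum, h4]
  refine mul_pos (inv_pos.2 hW) (hp _ fun h0 => hξ ?_)
  have h5 := congrArg (fun z => ⟪e, z⟫) h0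
  simp only [hu, hn', nJ, inner_sub_right, real_inner_smul_right, h.ort, h.ee, inner_zero_right,
    sub_zero, mul_one, zero_sub, neg_eq_zero, mul_eq_zero, inv_eq_zero, hW.ne', or_false] at h5
  rw [show ⟪u, B n⟫ = 0 from h5, zero_smul, sub_zero] at h0
  exact L.injective (h0.trans (map_zero L).symm)

theorem H_jet {S : Surf (m + 1)} {p : E (m + 1)} {c : ℝ} {w : E m → ℝ} {y : E m}
    (hG : Gr S p e L c w) (hS : S.Ok) (h : Fr e L) (hw : ContDiff ℝ 2 w)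
    (hy : ‖y‖ < c) (hwy : |w y| < c) : S.H (gam e L p w y) =
      bJ e L (S.B (gam e L p w y)) (fderiv ℝ S.B (gam e L p w y)) (S.a (gam e L p w y))
        (fderiv ℝ S.a (gam e L p w y)) (gradient w y)
      - pr2 (aJ e L (S.B (gam e L p w y)) (gradient w y)) (D2 w y) := by
  rw [H_sh hS, pr2_aJ, ← hess_eq hw, bJ, Surf.ν, n_jet hG hS h (hw.differentiable two_ne_zero y)
    hy hwy, trc]
  simp only [sh_jet hG hS h hw hy hwy, PiLp.sub_apply, Finset.sum_sub_distrib]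
  ring

section Sm2

variable {X : Type} [NormedAddCommGroup X] [NormedSpace ℝ X] {k : WithTop ℕ∞} {x : X}
  {B : X → En (m + 1)} {B' : X → E (m + 1) →L[ℝ] En (m + 1)} {q : X → E m} {a : X → ℝ}
  {a' : X → E (m + 1) →L[ℝ] ℝ}

theorem sm_aJ (hB : ContDiffAt ℝ k B x) (hq : ContDiffAt ℝ k q x) (h0 : 0 < WJ e L (B x) (q x)) :
    ContDiffAt ℝ k (fun x => aJ e L (B x) (q x)) x :=
  contDiffAt_pi.2 fun _ => contDiffAt_pi.2 fun _ => ContDiffAt.sum fun j _ =>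
    (EuclideanSpace.proj j : E (m + 1) →L[ℝ] ℝ).contDiff.contDiffAt.comp x
      (sm_t hB hq h0 contDiffAt_const contDiffAt_const)

theorem sm_bJ (hB : ContDiffAt ℝ k B x) (hq : ContDiffAt ℝ k q x) (h0 : 0 < WJ e L (B x) (q x))
    (hB' : ContDiffAt ℝ k B' x) (ha : ContDiffAt ℝ k a x) (ha' : ContDiffAt ℝ k a' x)
    (a0 : a x ≠ 0) : ContDiffAt ℝ k (fun x => bJ e L (B x) (B' x) (a x) (a' x) (q x)) x := by
  have h1 := sm_n hB hq h0
  have h2 := hB.clm_apply h1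
  exact (((ha'.clm_apply h2).div ha a0).add (ContDiffAt.sum fun j _ =>
    (EuclideanSpace.proj j : E (m + 1) →L[ℝ] ℝ).contDiff.contDiffAt.comp x
      (sm_s hB hq h0 hB' contDiffAt_const))).add
    ((h1.inner ℝ ((hB'.clm_apply h2).clm_apply h1)).div_const 2)

end Sm2

theorem lim_bJ {ι : Type} {l : Filter ι} {B : ι → En (m + 1)}
    {B' : ι → E (m + 1) →L[ℝ] En (m + 1)} {q : ι → E m} {B₀ : En (m + 1)}
    {B₀' : E (m + 1) →L[ℝ] En (m + 1)} {q₀ : E m} {a : ι → ℝ} {a₀ : ℝ}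
    {a' : ι → E (m + 1) →L[ℝ] ℝ} {a₀' : E (m + 1) →L[ℝ] ℝ} (hB : Tendsto B l (𝓝 B₀))
    (hq : Tendsto q l (𝓝 q₀)) (h0 : 0 < WJ e L B₀ q₀) (hB' : Tendsto B' l (𝓝 B₀'))
    (ha : Tendsto a l (𝓝 a₀)) (ha' : Tendsto a' l (𝓝 a₀')) (a0 : a₀ ≠ 0) :
    Tendsto (fun i => bJ e L (B i) (B' i) (a i) (a' i) (q i)) l (𝓝 (bJ e L B₀ B₀' a₀ a₀' q₀)) := by
  have h1 := lim_n hB hq h0
  have h2 := lim_app hB h1
  exact (((lim_app ha' h2).div ha a0).add (tendsto_finsetSum _ fun j _ =>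
    ((EuclideanSpace.proj j : E (m + 1) →L[ℝ] ℝ).continuous.tendsto _).comp
      (lim_s hB hq h0 hB' _))).add ((h1.inner (lim_app (lim_app hB' h2) h1)).div_const 2)

end Vale.Agent.P366R
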