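import Vale.Agent.P366R.White
import Vale.Agent.P366L.Cls
import Vale.Agent.P366W.Stab
import Vale.Agent.P366S.Int

/-!
# P366R: the regular part of a limit is smooth, stationary and stable
-/

set_option maxSynthPendingDepth 3

open MeasureTheory Metric Filter Topology Set
open scoped ContDiff ENNReal RealInnerProductSpace
open Vale.Agent.P366.Stmt Vale.Agent.P366W Vale.Agent.P366L
open Vale.Agent.P366S (Lev prj tsp del bs c2 Sm TS Test Rep)

noncomputable section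

namespace Vale.Agent.P366R

section geo

variable {N : ℕ} {T : Surf N} {X : Set (E N)} {x : E N}

/-- near `x` the set `X` is the Euclidean surface `T` -/
structure Eu (X : Set (E N)) (T : Surf N) (x : E N) : Prop where
  ok : T.Ok
  B : T.B = fun _ => ContinuousLinearMap.id ℝ (E N)
  mem : ∀ᶠ y in 𝓝 x, y ∈ X ↔ T.Φ y = 0

theorem Eu.ev (h : Eu X T x) : ∀ᶠ y in 𝓝 x, Eu X T y :=
  h.mem.eventually_nhds.mono fun _ hy => ⟨h.ok, h.B, hy⟩

theorem Eu.lev (h : Eu X T x) : Lev X T.Φ x :=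
  ⟨.of_forall fun _ => h.ok.smΦ.contDiffAt, fun h0 => h.ok.reg x (by
    rw [← norm_eq_zero, norm_gradient, h0, norm_zero]), h.mem⟩

theorem Eu.ν (h : Eu X T x) : T.ν = T.n := funext fun y => by simp [Surf.ν, h.B]

theorem Eu.nn (h : Eu X T x) (y : E N) : ⟪T.n y, T.n y⟫ = 1 := by
  simpa only [h.ν] using h.ok.nν y

theorem Eu.nP (h : Eu X T x) (y v : E N) : ⟪T.n y, T.P y v⟫ = 0 := by
  rw [Surf.P_apply, h.ν, inner_sub_right, real_inner_smul_right, h.nn]; ring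

theorem Eu.prj (h : Eu X T x) (hx : x ∈ X) : prj X x = T.P x := by
  ext1 v
  refine Submodule.eq_starProjection_of_mem_of_inner_eq_zero
    ((h.lev.mem_tsp hx _).2 (by rw [h.ok.fderiv_eq, h.nP, mul_zero])) fun w hw => ?_
  have := (h.lev.mem_tsp hx _).1 hw
  rw [h.ok.fderiv_eq, mul_eq_zero, or_iff_right (h.ok.W_pos x).ne'] at this
  rw [Surf.P_apply, h.ν, sub_sub_cancel, real_inner_smul_left, this, mul_zero]

theorem Eu.n_dn (h : Eu X T x) (y v : E N) : ⟪T.n y, fderiv ℝ T.n y v⟫ = 0 := by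
  have := h.ok.ν_dn y v
  simpa [h.ν, h.B] using this

theorem hess_sym {f : E N → ℝ} (hf : ContDiff ℝ ∞ f) (y v w : E N) :
    ⟪fderiv ℝ (gradient f) y v, w⟫ = ⟪v, fderiv ℝ (gradient f) y w⟫ := by
  have d1 : HasFDerivAt (fderiv ℝ f) (fderiv ℝ (fderiv ℝ f) y) y :=
    ((hf.fderiv_right (m := 1) (by norm_cast)).differentiable one_ne_zero y).hasFDerivAt
  have k : ∀ a b, ⟪fderiv ℝ (gradient f) y a, b⟫ = fderiv ℝ (fderiv ℝ f) y a b := fun a b => by
    have d2 := ((smooth_gradient hf).differentiable (by simp) y).hasFDerivAt.inner ℝ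
      (hasFDerivAt_const b y)
    simp only [inner_grad] at d2
    have := congrArg (fun M => M a) (d2.unique (d1.clm_apply (hasFDerivAt_const b y)))
    simpa using this
  rw [k, real_inner_comm, k]
  exact hf.contDiffAt.isSymmSndFDerivAt (by simp; norm_cast) v w

theorem Eu.sh_sym (h : Eu X T x) (y v w : E N) : ⟪sh T y v, w⟫ = ⟪v, sh T y w⟫ := by
  have d := (h.ok.smW.differentiable (by simp) y).hasFDerivAt.smul (h.ok.dn y).hasFDerivAt
  rw [show T.W • T.n = gradient T.Φ from funext fun z => (h.ok.grad_eq z).symm] at d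
  have k : ∀ a b, T.W y * ⟪sh T y a, b⟫ = ⟪fderiv ℝ (gradient T.Φ) y (T.P y a), T.P y b⟫ :=
    fun a b => by
      rw [d.fderiv, sh, h.ν]
      simp only [add_apply, smul_apply, ContinuousLinearMap.smulRight_apply, inner_add_left,
        real_inner_smul_left, h.nP, ContinuousLinearMap.comp_apply]
      rw [Surf.P_apply y b, h.ν, inner_sub_right, real_inner_smul_right,
        real_inner_comm (T.n y) (fderiv ℝ T.n y _), h.n_dn]
      ring
  apply mul_left_cancel₀ (h.ok.W_pos y).ne'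
  rw [k, real_inner_comm _ v, k, hess_sym h.ok.smΦ, real_inner_comm]

theorem Eu.c2 (h : Eu X T x) (hx : x ∈ X) : c2 X x = T.A2 x := by
  have d : ∀ k i j, del X (fun y => ⟪bs (E N) i, P366S.prj X y (bs (E N) j)⟫) (bs (E N) k) x =
      -(⟪bs (E N) j, sh T x (bs (E N) k)⟫ * ⟪bs (E N) i, T.n x⟫ +
        ⟪bs (E N) j, T.n x⟫ * ⟪bs (E N) i, sh T x (bs (E N) k)⟫) := fun k i j => by
    have e : (fun y => ⟪bs (E N) i, P366S.prj X y (bs (E N) j)⟫) =ᶠ[𝓝[X] x] fun y =>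
        ⟪bs (E N) i, bs (E N) j⟫ - ⟪bs (E N) j, T.n y⟫ * ⟪bs (E N) i, T.n y⟫ := by
      filter_upwards [h.ev.filter_mono nhdsWithin_le_nhds, self_mem_nhdsWithin] with y h1 h2
      rw [h1.prj h2, Surf.P_apply, h.ν, inner_sub_right, real_inner_smul_right,
        real_inner_comm (T.n y) (bs (E N) j)]
    have a : ∀ v, HasFDerivAt (fun y => ⟪v, T.n y⟫) (innerSL ℝ v ∘L fderiv ℝ T.n x) x := fun v =>
      (innerSL ℝ v).hasFDerivAt.comp x (h.ok.dn x).hasFDerivAt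
    rw [P366S.del_congr hx e, P366S.del_eq (((a _).fun_mul (a _)).const_sub _).hasFDerivWithinAt,
      h.prj hx, sh, h.ν]
    simp
    ring
  have s : ∀ v w : E N, ∑ i, ⟪bs (E N) i, v⟫ * ⟪bs (E N) i, w⟫ = ⟪v, w⟫ := fun v w => by
    rw [← (bs (E N)).sum_inner_mul_inner v w]
    exact Finset.sum_congr rfl fun i _ => by rw [real_inner_comm]
  have q : ∀ v : E N, ⟪T.n x, v⟫ = 0 → ∑ i, ∑ j, (-(⟪bs (E N) j, v⟫ * ⟪bs (E N) i, T.n x⟫ +
      ⟪bs (E N) j, T.n x⟫ * ⟪bs (E N) i, v⟫)) ^ 2 = 2 * ⟪v, v⟫ := fun v hv => by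
    have : ∀ i j, (-(⟪bs (E N) j, v⟫ * ⟪bs (E N) i, T.n x⟫ +
        ⟪bs (E N) j, T.n x⟫ * ⟪bs (E N) i, v⟫)) ^ 2 =
        ⟪bs (E N) i, T.n x⟫ * ⟪bs (E N) i, T.n x⟫ * (⟪bs (E N) j, v⟫ * ⟪bs (E N) j, v⟫) +
        2 * (⟪bs (E N) i, T.n x⟫ * ⟪bs (E N) i, v⟫) * (⟪bs (E N) j, T.n x⟫ * ⟪bs (E N) j, v⟫) +
        ⟪bs (E N) i, v⟫ * ⟪bs (E N) i, v⟫ * (⟪bs (E N) j, T.n x⟫ * ⟪bs (E N) j, T.n x⟫) :=
      fun i j => by ring
    simp only [this, Finset.sum_add_distrib, ← Finset.mul_sum, ← Finset.sum_mul, s, h.nn, hv]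
    ring
  rw [P366S.c2, A2_sh, trc_eq_trace, LinearMap.trace_eq_sum_inner _ (bs (E N))]
  simp only [d]
  rw [Finset.sum_congr rfl fun k _ => q _ (by rw [sh, h.ν]; exact h.n_dn _ _), ← Finset.mul_sum,
    mul_div_cancel_left₀ _ two_ne_zero]
  exact Finset.sum_congr rfl fun k _ => h.sh_sym x _ _

theorem Eu.grad (h : Eu X T x) (hx : x ∈ X) (φ : E N → ℝ) :
    ‖(fderiv ℝ φ x).comp (P366S.prj X x)‖ ^ 2 =
      ⟪gradient φ x, gradient φ x⟫ - ⟪gradient φ x, T.n x⟫ ^ 2 := by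
  have : (fderiv ℝ φ x).comp (P366S.prj X x) = innerSL ℝ (T.P x (gradient φ x)) := by
    ext1 v
    simp only [h.prj hx, ContinuousLinearMap.comp_apply, ← inner_grad, innerSL_apply_apply,
      Surf.P_apply, h.ν, inner_sub_left, inner_sub_right, real_inner_smul_left,
      real_inner_smul_right, real_inner_comm (T.n x)]
    ring
  rw [this, innerSL_apply_norm, ← real_inner_self_eq_norm_sq]
  simp only [Surf.P_apply, h.ν, inner_sub_left, inner_sub_right, real_inner_smul_left,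
    real_inner_smul_right, h.nn, real_inner_comm (T.n x)]
  ring

end geo

variable {n : ℕ} {ι : Type} {𝒰 : Ultrafilter ι} {S : ι → Surf (n + 1)} {R η Λ : ι → ℝ}
  {μ : Measure (E (n + 1))}

theorem lm_lim (h : Lm 𝒰 S R η Λ μ) {V : Type} [NormedAddCommGroup V] {f : ι → V} {a : V}
    {x : ι → E (n + 1)} {x₀ : E (n + 1)} (hx : Tendsto x 𝒰 (𝓝 x₀))
    (hf : ∀ i ρ e, (S i).Bd 0 ρ e e → x i ∈ ball 0 ρ → ‖f i - a‖ ≤ e) : Tendsto f 𝒰 (𝓝 a) :=
  Metric.tendsto_nhds.2 fun e he => by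
    filter_upwards [h.ev (‖x₀‖ + 1) (half_pos he), hx.eventually (isOpen_ball.mem_nhds
      (mem_ball_zero_iff.2 (lt_add_one ‖x₀‖)))] with i h1 h2
    rw [dist_eq_norm]
    exact (hf i _ _ h1.2 h2).trans_lt (half_lt_self he)

theorem lm_cv (h : Lm 𝒰 S R η Λ μ) :
    Cv 𝒰 S univ (fun _ => ContinuousLinearMap.id ℝ _) (fun _ => 1) fun _ => 0 :=
  ⟨h.ok.mono fun _ hi => hi.1, contDiff_const, contDiff_const, contDiff_const, fun _ _ _ => rfl,
    fun _ _ hv => real_inner_self_pos.2 hv, fun _ => one_pos,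
    fun _ _ _ hx => lm_lim h hx fun _ _ _ hb hi => hb.B0 _ hi,
    fun _ _ _ hx => lm_lim h hx fun _ _ _ hb hi => by simpa using hb.B1 _ hi,
    fun _ _ _ hx => lm_lim h hx fun _ _ _ hb hi => hb.a0 _ hi,
    fun _ _ _ hx => lm_lim h hx fun _ _ _ hb hi => by simpa using hb.a1 _ hi,
    fun _ _ _ hx _ => lm_lim h hx fun _ _ _ hb hi => by simpa using hb.H0 _ hi⟩

theorem lm_app (h : Lm 𝒰 S R η Λ μ) {p : E (n + 1)} (hp : p ∈ μ.support) :
    ∃ x : ι → E (n + 1), Tendsto x 𝒰 (𝓝 p) ∧ ∀ᶠ i in (𝒰 : Filter ι), (S i).Φ (x i) = 0 := by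
  refine (app_or 𝒰 (G := fun i => {x | (S i).Φ x = 0}) (h.ok.mono fun i hi =>
    isClosed_eq hi.1.smΦ.continuous continuous_const) p).resolve_left fun ⟨r, hr, h1⟩ => ?_
  obtain ⟨i, a, y, b, c⟩ := (h1.and (h.near hp hr)).exists
  exact a y b c

theorem lm_supp (h : Lm 𝒰 S R η Λ μ) {x : ι → E (n + 1)} {p : E (n + 1)}
    (hx : Tendsto x 𝒰 (𝓝 p)) (h0 : ∀ᶠ i in (𝒰 : Filter ι), (S i).Φ (x i) = 0) :
    p ∈ μ.support := by
  refine (Measure.mem_support_iff_forall p).2 fun U hU => pos_iff_ne_zero.2 fun h1 => ?_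
  obtain ⟨s, hs, h2⟩ := Metric.mem_nhds_iff.1 hU
  have h3 := h.low' hx h0 s hs
  rw [Th, integral_eq_zero_of_ae (by
    filter_upwards [measure_eq_zero_iff_ae_notMem.1 h1] with y hy
    exact kr_zero hs (not_lt.1 fun h5 => hy (h2 (mem_ball_iff_norm.2 h5))))] at h3
  have := cn_pos n
  simp only [zero_div] at h3
  linarith

/-- the local structure at the regular points -/
theorem lm_loc (hW : WHITE) (n : ℕ) : ∃ δ₀ > (0 : ℝ), ∀ δ ≤ δ₀, ∀ (ι : Type) (𝒰 : Ultrafilter ι)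
    (S : ι → Surf (n + 1)) (R η Λ : ι → ℝ) (μ : Measure (E (n + 1))), Lm 𝒰 S R η Λ μ →
    ∀ p ∈ μ.support, p ∉ Sg n δ μ → ∃ T W, p ∈ W ∧ Cw 𝒰 S T W ∧ Eu μ.support T p := by
  obtain ⟨ε, hε, c, hc, -, -, hG⟩ := glim hW n
  refine ⟨ε / 2, half_pos hε, fun δ hδ ι 𝒰 S R η Λ μ h p hp hs => ?_⟩
  simp only [Sg, mem_ofPred_eq, not_forall, not_le] at hs
  obtain ⟨l, hl, hs⟩ := hs
  obtain ⟨x, hx, h0⟩ := lm_app h hp
  have h1 : Th n μ p l / cn n < 1 + ε := by
    rw [div_lt_iff₀ (cn_pos n)]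
    nlinarith [cn_pos n]
  obtain ⟨e, L, w, w₀, hg⟩ := hG ι 𝒰 S univ _ _ _ p p l x (lm_cv h) hl (subset_univ _) (by
    filter_upwards [h.ev (‖p‖ + 4 * l) (lt_min hε (div_pos hε hl)),
      (h.th (y := fun _ => p) tendsto_const_nhds hl).eventually (gt_mem_nhds h1)] with i a b
    exact ⟨a.2.mono (ball_subset_ball' (by rw [dist_zero_right]; linarith)) (min_le_left _ _)
      (min_le_right _ _), b.le⟩) (mem_ball_self (mul_pos hc hl)) hx h0
  have hm := self_mem_cyl (p := p) (e := e) (L := L) (mul_pos hc hl)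
  refine ⟨_, _, hm, hg.cw, hg.cw.ok, rfl, ?_⟩
  filter_upwards [(isOpen_cyl hg.fr).mem_nhds hm] with y hy
  refine ⟨fun h2 => ?_, fun h2 => ?_⟩
  · obtain ⟨z, a, b⟩ := lm_app h h2
    exact (hg.cw.lim z y hy a b).1
  · obtain ⟨z, a, b⟩ := hg.cw.app y hy h2
    exact lm_supp h a b

theorem supp_cl (μ : Measure (E (n + 1))) (U : Set (E (n + 1))) :
    closure (μ.support ∩ U) ∩ U ⊆ μ.support ∩ U := fun _ hy =>
  ⟨(μ.isClosed_support.closure_subset_iff.2 inter_subset_left) hy.1, hy.2⟩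

/-- convergence of the integrals -/
theorem int_lim (h : Lm 𝒰 S R η Λ μ) {U K : Set (E (n + 1))} (hU : IsOpen U) (hK : IsCompact K)
    (hKU : K ⊆ U) {φ : ι → E (n + 1) → ℝ} {f : E (n + 1) → ℝ} (hf : Sm (μ.support ∩ U) f)
    (f0 : ∀ x, x ∉ K → f x = 0)
    (hc : ∀ᶠ i in (𝒰 : Filter ι), Continuous (φ i)) (h0 : ∀ i x, x ∉ K → φ i x = 0)
    (hl : ∀ (x : ι → E (n + 1)), ∀ x₀ ∈ μ.support ∩ U, Tendsto x 𝒰 (𝓝 x₀) →
      (∀ᶠ i in (𝒰 : Filter ι), (S i).Φ (x i) = 0) → Tendsto (fun i => φ i (x i)) 𝒰 (𝓝 (f x₀))) :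
    Tendsto (fun i => ∫ x, φ i x ∂(S i).μ) 𝒰 (𝓝 (∫ x, f x ∂μ)) := by
  obtain ⟨ψ, hψ, e⟩ := TS.ext hU (supp_cl μ U)
    (⟨hf, K, hK, hKU, fun y _ hy => f0 y hy⟩ : TS U _ f)
  have e1 : ∫ x, f x ∂μ = ∫ x, ψ x ∂μ := integral_congr_ae (by
    filter_upwards [measure_eq_zero_iff_ae_notMem.1 μ.measure_compl_support] with y hy
    by_cases h1 : y ∈ U
    · exact (e y ⟨not_not.1 hy, h1⟩).symm
    · rw [f0 y fun h2 => h1 (hKU h2), image_eq_zero_of_notMem_tsupport fun h2 => h1 (hψ.sub h2)])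
  have z : ∀ x, x ∉ K ∪ tsupport ψ → ψ x = 0 := fun x hx =>
    image_eq_zero_of_notMem_tsupport fun h2 => hx (.inr h2)
  rw [e1]
  refine h.vg.tendsto (hK.union hψ.cs) h.hf hψ.sm.continuous z
    (hc.mono fun i hi => hi.aestronglyMeasurable)
    (.of_forall fun i => .of_forall fun x hx => h0 i x fun h2 => hx (.inl h2)) fun ε hε => ?_
  have := ev_cpt 𝒰 (hK.union hψ.cs) (P := fun i x => (S i).Φ x = 0 → |φ i x - ψ x| ≤ ε)
    fun x x₀ h1 h2 => by
      by_cases h3 : ∀ᶠ i in (𝒰 : Filter ι), (S i).Φ (x i) = 0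
      · have h4 : x₀ ∈ μ.support ∩ U := ⟨lm_supp h h2 h3, union_subset hKU hψ.sub h1⟩
        have h5 := ((hl x x₀ h4 h2 h3).sub ((hψ.sm.continuous.tendsto _).comp h2)).abs
        rw [e _ h4, sub_self, abs_zero] at h5
        exact (h5.eventually (gt_mem_nhds hε)).mono fun i hi _ => hi.le
      · exact (Ultrafilter.eventually_not.2 h3).mono fun i hi h4 => (hi h4).elim
  filter_upwards [this, h.ok] with i h1 h2
  filter_upwards [h2.1.sup] with x hx
  by_cases h3 : x ∈ K ∪ tsupport ψ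
  · exact h1 x h3 hx
  · rw [z x h3, h0 i x fun h2 => h3 (.inl h2), sub_zero, abs_zero]; exact hε.le

theorem sm_of {X : Set (E (n + 1))} {f : E (n + 1) → ℝ}
    (h : ∀ x ∈ X, ∃ g : E (n + 1) → ℝ, ContDiff ℝ ∞ g ∧ f =ᶠ[𝓝[X] x] g) : Sm X f := fun x hx =>
  let ⟨_, a, b⟩ := h x hx
  ⟨_, (Rep.mk (.of_forall fun _ => a.contDiffAt)).congr b⟩

/-- **REGL** -/
theorem regl_of (hW : WHITE) : REGL := fun n => by
  obtain ⟨δ₀, h0, hL⟩ := lm_loc hW n
  refine ⟨δ₀, h0, fun δ hδ μ ⟨ι, 𝒰, S, R, η, Λ, h⟩ U hU hd => ?_⟩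
  have := h.fin
  have loc : ∀ p ∈ μ.support ∩ U, ∃ T W, p ∈ W ∧ Cw 𝒰 S T W ∧ Eu (μ.support ∩ U) T p :=
    fun p hp => by
      obtain ⟨T, W, a, b, c⟩ := hL δ hδ ι 𝒰 S R η Λ μ h p hp.1 (disjoint_left.1 hd hp.2)
      refine ⟨T, W, a, b, c.ok, c.B, ?_⟩
      filter_upwards [c.mem, hU.mem_nhds hp.2] with y h1 h2
      rw [← h1, mem_inter_iff, and_iff_left h2]
  have reg : ∀ x ∈ μ.support ∩ U, ∃ F, Lev (μ.support ∩ U) F x := fun x hx =>
    let ⟨_, _, _, _, c⟩ := loc x hx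
    ⟨_, c.lev⟩
  have ln : ∀ {T W} {x : ι → E (n + 1)} {p}, p ∈ W → Cw 𝒰 S T W → Eu (μ.support ∩ U) T p →
      Tendsto x 𝒰 (𝓝 p) → (∀ᶠ i in (𝒰 : Filter ι), (S i).Φ (x i) = 0) →
      Tendsto (fun i => (S i).ν (x i)) 𝒰 (𝓝 (T.n p)) := fun a b c hx hz => by
    rw [← c.ν]
    exact b.lim_ν (by rw [c.B]; exact lm_cv h) a (mem_univ _) hx hz
  have fz : ∀ {φ : E (n + 1) → ℝ} (y), y ∉ tsupport φ → fderiv ℝ φ y = 0 := fun y hy =>
    fderiv_of_notMem_tsupport ℝ hy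
  refine ⟨inter_subset_right, reg, supp_cl μ U,
    measure_mono_null (fun y hy h1 => hy.2 ⟨h1, hy.1⟩) μ.measure_compl_support,
    fun x hx W hW => ((Measure.mem_support_iff_forall x).1 hx.1 W hW).ne',
    fun K hK => hK.measure_lt_top, fun φ hφ v => ?_, fun φ hφ => ?_⟩
  · obtain ⟨ρ, hρ⟩ := hφ.cs.isCompact.isBounded.subset_ball 0
    have a1 : ContDiff ℝ 2 φ := hφ.sm.of_le two_le_inf
    have hd : Continuous (fderiv ℝ φ) := a1.continuous_fderiv two_ne_zero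
    have e1 : ∀ x, fderiv ℝ (fun y => φ y • v) x = (fderiv ℝ φ x).smulRight v := fun x =>
      ((a1.differentiable two_ne_zero x).hasFDerivAt.smul_const v).fderiv
    have t1 := int_lim h hU hφ.cs.isCompact hφ.sub
      (φ := fun i x => fderiv ℝ φ x (v - ⟪(S i).n x, v⟫ • (S i).ν x))
      (f := fun x => fderiv ℝ φ x (prj (μ.support ∩ U) x v)) (sm_of fun x hx => by
        obtain ⟨T, W, -, -, c⟩ := loc x hx
        refine ⟨fun y => fderiv ℝ φ y (v - ⟪T.n y, v⟫ • T.ν y),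
          (hφ.sm.fderiv_right (m := ∞) (by simp)).clm_apply
            (contDiff_const.sub ((c.ok.smn.inner ℝ contDiff_const).smul c.ok.smν)), ?_⟩
        filter_upwards [c.ev.filter_mono nhdsWithin_le_nhds, self_mem_nhdsWithin] with y h1 h2
        rw [h1.prj h2, Surf.P_apply]) (fun x hx => by simp [fz x hx])
      (h.ok.mono fun i hi => by
        have := hi.1.smn.continuous
        have := hi.1.smν.continuous
        fun_prop) (fun i x hx => by simp [fz x hx]) fun x p hp hx hz => by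
        obtain ⟨T, W, a, b, c⟩ := loc p hp
        rw [c.prj hp, Surf.P_apply, c.ν]
        exact (isBoundedBilinearMap_apply.continuous.tendsto (_, _)).comp
          (((hd.tendsto _).comp hx).prodMk_nhds (tendsto_const_nhds.sub
            (((b.lim x p a hx hz).2.1.inner tendsto_const_nhds).smul (ln a b c hx hz))))
    have t2 := (h.vg _ (a1.continuous.smul continuous_const).norm
      (hφ.cs.smul_right (f' := fun _ => v)).norm).const_mul 5
    have t3 := h.Λ0.mul t2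
    rw [zero_mul] at t3
    refine tendsto_nhds_unique t1 (squeeze_zero_norm' ?_ t3)
    filter_upwards [h.ok, h.R0.eventually_ge_atTop ρ, h.η0.eventually (Iic_mem_nhds one_half_pos)]
      with i h1 h2 h3
    have := fvb _ (S i) 0 _ _ _ h1.1 h1.2 h3 (fun y => φ y • v) (a1.smul contDiff_const)
      hφ.cs.smul_right fun x hx => by
        rw [image_eq_zero_of_notMem_tsupport fun h => hx (ball_subset_ball h2 (hρ h)), zero_smul]
    simp only [dvg_eq, e1, trc_smulRight, ContinuousLinearMap.smulRight_apply,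
      inner_smul_right] at this
    simp only [map_sub, map_smul, smul_eq_mul, mul_comm ⟪_, v⟫]
    exact this.trans_eq (by simp only [Pi.smul_apply']; ring)
  · obtain ⟨ρ, hρ⟩ := hφ.cs.isCompact.isBounded.subset_ball 0
    have a1 : ContDiff ℝ 2 φ := hφ.sm.of_le two_le_inf
    have hg := smooth_gradient hφ.sm
    have gz : ∀ y, y ∉ tsupport φ → gradient φ y = 0 := fun y hy => by simp [gradient, fz y hy]
    have z : ∀ y, y ∉ tsupport φ → φ y = 0 := fun y => image_eq_zero_of_notMem_tsupport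
    have t1 := int_lim h hU hφ.cs.isCompact hφ.sub (φ := fun i x => (S i).A2 x * φ x ^ 2)
      (f := fun x => c2 (μ.support ∩ U) x * φ x ^ 2)
      ((P366S.sm_c2 reg).mul (sm_of fun x _ => ⟨_, hφ.sm.pow 2, .rfl⟩))
      (fun x hx => by simp [z x hx])
      (h.ok.mono fun i hi => (Sb.cont_A2 hi.1).mul (a1.continuous.pow 2))
      (fun i x hx => by simp [z x hx]) fun x p hp hx hz => by
        obtain ⟨T, W, a, b, c⟩ := loc p hp
        rw [c.c2 hp]
        exact (b.lim_A2 a hx hz).mul (((a1.continuous.tendsto _).comp hx).pow 2)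
    have t2 := int_lim h hU hφ.cs.isCompact hφ.sub (φ := fun i x =>
        ⟪gradient φ x, (S i).B x (gradient φ x)⟫ - ⟪gradient φ x, (S i).ν x⟫ ^ 2)
      (f := fun x => ‖(fderiv ℝ φ x).comp (prj (μ.support ∩ U) x)‖ ^ 2) (sm_of fun x hx => by
        obtain ⟨T, W, -, -, c⟩ := loc x hx
        refine ⟨fun y => ⟪gradient φ y, gradient φ y⟫ - ⟪gradient φ y, T.n y⟫ ^ 2,
          (hg.inner ℝ hg).sub ((hg.inner ℝ c.ok.smn).pow 2), ?_⟩
        filter_upwards [c.ev.filter_mono nhdsWithin_le_nhds, self_mem_nhdsWithin] with y h1 h2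
        exact h1.grad h2 φ) (fun x hx => by simp [fz x hx])
      (h.ok.mono fun i hi => by
        have := hi.1.smB.continuous
        have := hi.1.smν.continuous
        have := hg.continuous
        fun_prop) (fun i x hx => by simp [gz x hx]) fun x p hp hx hz => by
        obtain ⟨T, W, a, b, c⟩ := loc p hp
        have l1 := (hg.continuous.tendsto _).comp hx
        rw [c.grad hp]
        exact (l1.inner (lim_app ((lm_cv h).cB x p trivial hx) l1)).sub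
          ((l1.inner (ln a b c hx hz)).pow 2)
    have t3 := h.vg (fun x => φ x ^ 2) (a1.continuous.pow 2)
      (.intro hφ.cs.isCompact fun x hx => by simp [z x hx])
    refine le_of_forall_pos_le_add fun e he => ?_
    set D := ∫ x, ‖(fderiv ℝ φ x).comp (prj (μ.support ∩ U) x)‖ ^ 2 ∂μ
    have D0 : 0 ≤ D := integral_nonneg fun _ => by positivity
    obtain ⟨C, hC⟩ := stab_of fv (n + 1) (e / (D + 1)) (by positivity)
    have t4 := (t2.const_mul (1 + e / (D + 1))).add (((h.Λ0.pow 2).const_mul C).mul t3)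
    refine (le_of_tendsto_of_tendsto t1 t4 ?_).trans ?_
    · filter_upwards [h.ok, h.R0.eventually_ge_atTop ρ,
        h.η0.eventually (Iic_mem_nhds one_half_pos)] with i h1 h2 h3
      exact hC (S i) 0 _ _ _ h1.1 h1.2 h3 φ a1 hφ.cs fun x hx =>
        z x fun h => hx (ball_subset_ball h2 (hρ h))
    · have : e / (D + 1) * D ≤ e := by
        rw [div_mul_eq_mul_div, div_le_iff₀ (by positivity)]; nlinarith
      nlinarith

end Vale.Agent.P366R
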