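import Vale.Agent.P366R.Rgc1
import Vale.Agent.P366W.White3

/-!
# P366R: the structure of the limit of capillary graphs over a point without bad points
-/

open MeasureTheory Metric Filter Topology Set
open scoped ContDiff ENNReal RealInnerProductSpace
open Vale.Agent.P366.Stmt Vale.Agent.P366W
open Vale.Agent.P366D (snc ini)
open Vale.Agent.P366P (hw ini_snc snc_last snc_ini sm_ini cont_snc)
open Vale.Agent.P366C (Cf Rc Nm RGC a0)
open Fin (last)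

noncomputable section

namespace Vale.Agent.P366R

variable {k N : ℕ} {I : Type} {𝒰 : Ultrafilter I}

/-- the surfaces approach the point `x₀` with the conormal `n₀` -/
def Ap (𝒰 : Ultrafilter I) (S : I → Surf N) (x₀ n₀ : E N) : Prop :=
  ∃ x : I → E N, Tendsto x 𝒰 (𝓝 x₀) ∧ (∀ᶠ i in (𝒰 : Filter I), (S i).Φ (x i) = 0) ∧
    Tendsto (fun i => (S i).n (x i)) 𝒰 (𝓝 n₀)

theorem Cw.ap {S : I → Surf N} {T : Surf N} {W : Set (E N)} (h : Cw 𝒰 S T W) {x₀ n₀ : E N}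
    (hx : x₀ ∈ W) : Ap 𝒰 S x₀ n₀ ↔ T.Φ x₀ = 0 ∧ n₀ = T.n x₀ := by
  refine ⟨fun ⟨x, a, b, c⟩ => ⟨(h.lim x x₀ hx a b).1,
    tendsto_nhds_unique c (h.lim x x₀ hx a b).2.1⟩, fun ⟨h1, h2⟩ => ?_⟩
  obtain ⟨x, a, b⟩ := h.app x₀ hx h1
  exact ⟨x, a, b, h2 ▸ (h.lim x x₀ hx a b).2.1⟩

/-- uniform bounds of the derivatives of the graphs -/
def GUB : Prop := ∀ (m : ℕ) (I : Type) (𝒰 : Ultrafilter I) (S : I → Surf (m + 1))
  (O : Set (E (m + 1))) (B : E (m + 1) → En (m + 1)) (a h : E (m + 1) → ℝ) (p e : E (m + 1))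
  (L : E m →ₗᵢ[ℝ] E (m + 1)) (c : ℝ) (w : I → E m → ℝ) (w₀ : E m → ℝ) (g : I → E (m + 1) → ℝ),
  Cv 𝒰 S O B a h → Gl 𝒰 S B a p e L c w w₀ → cyl p e L (2 * c) ⊆ O → (∀ i, (S i).B = B) →
  (∀ i, (S i).a = a) → (∀ x, UB 𝒰 x g) →
  (∀ᶠ i in (𝒰 : Filter I), ∀ x ∈ O, (S i).Φ x = 0 → (S i).H x = g i x) →
  ∀ y, ‖y‖ < c → UB 𝒰 y w

/-- the bounds of the capillary graphs -/
def CBD : Prop := ∀ (n : ℕ) (I : Type) (𝒰 : Ultrafilter I) (G : Field n) (φ H : E n → ℝ)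
  (u : I → E n → ℝ) (c ε : I → ℝ) (O : Set (E n)) (S Λ η z : ℝ) (p : E n),
  Cf 𝒰 G φ H u c ε O S Λ → p ∈ O → |z| < S → Nm G φ η p → η ≤ 1 / 2 →
  ∃ R > (0 : ℝ), ∃ Λ', ∀ᶠ i in (𝒰 : Filter I), (cs G φ (u i)).Bd (snc p z) R η Λ'

/-- the structure near the height `z` -/
structure Lc (𝒰 : Ultrafilter I) (G : P366.Stmt.Field (k + 1)) (φ H : E (k + 1) → ℝ)
    (u : I → E (k + 1) → ℝ) (p e : E (k + 1)) (L : E k →ₗᵢ[ℝ] E (k + 1)) (w : E k → ℝ) (z ρ : ℝ)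
    (v : I → E (k + 1) → ℝ) : Prop where
  r0 : 0 < ρ
  smw : Smooth w
  lip : ∀ y, ‖y‖ < ρ → |w y| ≤ ‖y‖ / 2
  gr : ∀ᶠ i in (𝒰 : Filter I), ContDiff ℝ ∞ (v i) ∧ ∀ y s t, ‖y‖ < ρ → |s| < ρ → |t - z| < ρ →
    (u i (p + L y + s • e) < t ↔ s < v i (snc y t)) ∧
      (u i (p + L y + s • e) = t ↔ s = v i (snc y t))
  cv : ∀ x, ‖ini x‖ < ρ → |x (last k) - z| < ρ → ∀ j,
    Tendsto (fun q : I × E (k + 1) => iteratedFDeriv ℝ j (v q.1) q.2) ((𝒰 : Filter I) ×ˢ 𝓝 x)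
      (𝓝 (iteratedFDeriv ℝ j (fun z => w (ini z)) x))
  mc : ∀ y, ‖y‖ < ρ →
    (gs p e L w (B0 G) (a0 G φ)).H (p + L y + w y • e) = H (p + L y + w y • e)

variable {G : P366.Stmt.Field (k + 1)} {φ H : E (k + 1) → ℝ} {u : I → E (k + 1) → ℝ} {c ε : I → ℝ}
  {O : Set (E (k + 1))} {S Λ T z r : ℝ} {p e : E (k + 1)} {L : E k →ₗᵢ[ℝ] E (k + 1)}

theorem snc_sub (x : E (k + 1)) (z : ℝ) : x - snc 0 z = snc (ini x) (x (last k) - z) := by
  rw [sub_eq_iff_eq_add, snc_add, add_zero, sub_add_cancel, snc_ini]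

theorem gs_ok (hG : P366Z.Met G) (hφ : Smooth φ) (hF : Fr e L) {w : E k → ℝ} (hw : Smooth w) :
    (gs p e L w (B0 G) (a0 G φ)).Ok :=
  cap k e L _ _ _ hF (contDiff_const.add (ContDiff.comp hw (contDiff_id.sub contDiff_const)))
    (sm_B0 hG) ((ContDiff.exp hφ).mul hG.sm_dens) (B0_sym hG) (fun x _ => B0_pos hG x)
    fun _ => mul_pos (Real.exp_pos _) (hG.dens_pos _)

theorem lc_of (hU : GUB) (h : Cf 𝒰 G φ H u c ε O S Λ) (hF : Fr e L) (r0 : 0 < r)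
    {w : I → E (k + 1) → ℝ} {w₀ : E (k + 1) → ℝ} (hg : Gl 𝒰 (fun i => cs G φ (u i)) (B1 G) (a1 G φ)
      (snc p z) (-Lz (k + 1) e) (Lh L) r w w₀)
    (hs : cyl (snc p z) (-Lz (k + 1) e) (Lh L) (2 * r) ⊆ Sl O S) :
    (∃ w' v, Lc 𝒰 G φ H u p e L w' z (r / 2) v) ∧ ∀ t, |t - z| < r / 2 → ∀ n₀,
      Ap 𝒰 (fun i => cs G φ (u i)) (snc p t) n₀ ↔ Ap 𝒰 (fun i => cs G φ (u i)) (snc p z) n₀ := by
  have hW := hg.cw
  have ho := isOpen_cyl (p := snc p z) (c := r) hg.fr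
  have hs' := (cyl_mono (by linarith : r ≤ 2 * r)).trans hs
  set T := gs (snc p z) (-Lz (k + 1) e) (Lh L) w₀ (B1 G) (a1 G φ) with hT
  have a1 : ∀ y t s, T.Φ (snc (p + L y + (-s) • e) (z + t)) = s - w₀ (snc y t) := fun y t s => by
    rw [← Lh_pt, gs_pt hg.fr]
  have a2 : ∀ y t s, ‖snc y t‖ < r → |s| < r → snc (p + L y + (-s) • e) (z + t) ∈
      cyl (snc p z) (-Lz (k + 1) e) (Lh L) r := fun y t s h1 h2 => by
    rw [← Lh_pt]; exact hg.fr.mem_cyl.2 ⟨h1, h2⟩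
  have a3 : ∀ x, ‖x‖ < r → |w₀ x| < r := fun x hx => (hg.bd x hx.le).1.trans_lt (by linarith)
  have a4 : ∀ y t t', ‖snc y t‖ < r → ‖snc y t'‖ < r → w₀ (snc y t) ≤ w₀ (snc y t') :=
    fun y t t' h1 h2 => not_lt.1 fun h3 => by
      have b1 := abs_lt.1 (a3 _ h1)
      have b2 := abs_lt.1 (a3 _ h2)
      have b3 : |(w₀ (snc y t) + w₀ (snc y t')) / 2| < r := abs_lt.2 ⟨by linarith, by linarith⟩
      have := vert h hW ho hs' (a2 y t _ h1 b3) (a2 y t' _ h2 b3) (by rw [a1]; linarith)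
      rw [a1] at this
      linarith
  have a5 : ∀ y t, ‖snc y t‖ < r → w₀ (snc y t) = w₀ (Lz k y) := fun y t h1 => by
    have : ‖snc y 0‖ < r := lt_of_le_of_lt (abs_le_of_sq_le_sq' (by
      rw [norm_snc, norm_snc]; nlinarith [sq_nonneg t]) (norm_nonneg _)).2 h1
    exact le_antisymm (a4 y t 0 h1 this) (a4 y 0 t this h1)
  have s1 : Smooth fun y => -w₀ (Lz k y) :=
    (ContDiff.comp hg.sm (Lz k).toContinuousLinearMap.contDiff).neg
  set T' := gs p e L (fun y => -w₀ (Lz k y)) (B0 G) (a0 G φ) with hT'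
  have ok : T'.Ok := gs_ok h.met h.smφ hF s1
  have a6 : ∀ x ∈ cyl (snc p z) (-Lz (k + 1) e) (Lh L) r,
      T.Φ =ᶠ[𝓝 x] fun y => -T'.Φ (ini y) := fun x hx => by
    filter_upwards [ho.mem_nhds hx]
    rintro _ ⟨y, s, h1, -, rfl⟩
    rw [← snc_ini y] at h1 ⊢
    rw [Lh_pt, a1, ini_snc, gs_pt hF, a5 _ _ h1]
    ring
  have a7 : ∀ t, |t - z| < r / 2 → ∀ n₀, Ap 𝒰 (fun i => cs G φ (u i)) (snc p t) n₀ ↔
      n₀ = -Lz (k + 1) (T'.n p) := fun t ht n₀ => by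
    have b1 : ‖snc (0 : E k) (t - z)‖ < r := snc_lt (by simpa) ht
    have b2 := a2 0 (t - z) 0 b1 (by simpa)
    have b3 := a1 0 (t - z) 0
    have b4 : w₀ 0 = 0 := by simpa using (hg.bd 0 (by simpa using r0.le)).1
    rw [a5 _ _ b1] at b3
    simp only [map_zero, neg_zero, zero_smul, add_zero, add_sub_cancel, b4, sub_zero] at b2 b3
    rw [hW.ap b2, (cyl_n rfl rfl ok (a6 _ b2)).1, ini_snc, and_iff_right b3]
  refine ⟨⟨_, fun i x => -w i (x - snc 0 z), half_pos r0, s1, fun y hy => ?_, ?_,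
    fun x h1 h2 j => ?_, fun y hy => ?_⟩,
    fun t ht n₀ => (a7 t ht n₀).trans (a7 z (by simpa) n₀).symm⟩
  · simpa using (hg.bd (Lz k y) (by rw [(Lz k).norm_map]; linarith)).1
  · obtain ⟨A, hA⟩ := hg.gr
    filter_upwards [hA] with i hi
    refine ⟨(ContDiff.comp hi.1 (contDiff_id.sub contDiff_const)).neg, fun y s t h1 h2 h3 => ?_⟩
    have := hi.2.2.2 (snc y (t - z)) (-s) ((snc_lt h1 h3).trans (by linarith))
      (by rw [abs_neg]; linarith)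
    rw [Lh_pt, cs_Φ, snc_last, ini_snc, neg_neg, add_sub_cancel, sub_neg, sub_eq_zero] at this
    rw [snc_sub, ini_snc, snc_last, ← not_le, le_iff_lt_or_eq, this.1, this.2,
      eq_comm (b := t), this.2, ← le_iff_lt_or_eq, not_le]
    exact ⟨⟨fun h => by linarith, fun h => by linarith⟩, neg_eq_iff_eq_neg⟩
  · have b1 : ‖x - snc 0 z‖ < r := by rw [snc_sub]; exact snc_lt h1 h2
    have b2 : ContDiff ℝ ∞ fun x : E (k + 1) => x - snc 0 z := contDiff_id.sub contDiff_const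
    have u1 := hU (k + 1) I 𝒰 _ _ _ _ _ _ _ _ _ w w₀
      (fun i x => -(H (ini x) + c i + ε i * x (last (k + 1)))) (cf_cv h) hg hs (fun _ => rfl)
      (fun _ => rfl) (fun x => (((ub_smooth (.of_forall fun _ =>
        (ContDiff.comp h.smH sm_ini).contDiffAt)).add (ub_const (h.c0.norm.eventually
          (Iic_mem_nhds (lt_add_one _))))).add ((ub_const (h.ε0.norm.eventually
            (Iic_mem_nhds (lt_add_one _)))).mul (ub_smooth (.of_forall fun _ =>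
              (EuclideanSpace.proj (last (k + 1)) : _ →L[ℝ] ℝ).contDiff.contDiffAt)))).neg)
      (cf_H h) _ b1
    have u2 := (u1.comp (ub_smooth (.of_forall fun _ => b2.contDiffAt))
      ((b2.continuous.tendsto x).comp tendsto_snd)).neg
    have s2 : ContDiff ℝ ∞ fun x => -w₀ (x - snc 0 z) := (ContDiff.comp hg.sm b2).neg
    have u3 := u2.cvg (.of_forall fun _ => s2.contDiffAt)
      (closedBall_mem_nhds_of_mem (mem_ball_iff_norm.2 b1))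
      (Mv.unif (fun y y₀ h1 h2 => (hg.m0 _ _ (mem_closedBall_zero_iff.2
        (mem_closedBall_iff_norm.1 h1)) (h2.sub_const _)).neg) (isCompact_closedBall _ _)
        Subset.rfl fun _ _ => s2.continuous.continuousAt) j
    have e1 : (fun x => -w₀ (x - snc 0 z)) =ᶠ[𝓝 x] fun x => -w₀ (Lz k (ini x)) := by
      filter_upwards [b2.continuous.norm.continuousAt.eventually (gt_mem_nhds b1)] with y hy
      rw [snc_sub] at hy ⊢
      rw [a5 _ _ hy]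
    rwa [(e1.iteratedFDeriv ℝ j).self_of_nhds] at u3
  · have b1 : ‖snc y 0‖ < r := snc_lt hy (by simpa)
    have b2 := a2 y 0 _ b1 (a3 _ b1)
    have b3 := hW.H_eq (cf_cv h) b2 (hs' b2) (by rw [a1, sub_self])
    rw [cyl_H rfl rfl rfl ok (a6 _ b2), ini_snc, neg_inj] at b3
    exact b3

theorem Lc.lim {w : E k → ℝ} {ρ : ℝ} {v : I → E (k + 1) → ℝ} (h : Lc 𝒰 G φ H u p e L w z ρ v)
    {y : I → E k × ℝ} {y₀ : E k × ℝ} (h1 : ‖y₀.1‖ < ρ) (h2 : |y₀.2 - z| < ρ)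
    (hy : Tendsto y 𝒰 (𝓝 y₀)) :
    Tendsto (fun i => v i (snc (y i).1 (y i).2)) 𝒰 (𝓝 (w y₀.1)) := by
  have := (((continuousMultilinearCurryFin0 ℝ (E (k + 1)) ℝ).continuous.tendsto _).comp
    (h.cv (snc y₀.1 y₀.2) (by rwa [ini_snc]) (by rwa [snc_last]) 0)).comp
    (tendsto_id.prodMk ((cont_snc.tendsto _).comp hy))
  simpa [Function.comp_def, ini_snc] using this

theorem rc_of (hF : Fr e L) (hT : 0 < T)
    (h : ∀ z, |z| ≤ T → ∃ w ρ v, Lc 𝒰 G φ H u p e L w z ρ v) :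
    ∃ r w W, Rc 𝒰 G φ H u T p e L r w W := by
  choose! w ρ v h using h
  have h0 := h 0 (by simpa using hT.le)
  have a1 : ∀ z z', |z| ≤ T → |z'| ≤ T → |z' - z| < ρ z → w z =ᶠ[𝓝 0] w z' :=
    fun z z' h1 h2 h3 => by
      have b0 := lt_min (h z h1).r0 (h z' h2).r0
      filter_upwards [ball_mem_nhds 0 b0] with y hy
      rw [mem_ball_zero_iff] at hy
      have b1 := hy.trans_le (min_le_left _ _)
      have b2 := hy.trans_le (min_le_right _ _)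
      have l1 := (h z' h2).lim (y₀ := (y, z')) b2 (by simpa using (h z' h2).r0) tendsto_const_nhds
      refine tendsto_nhds_unique ((h z h1).lim (y₀ := (y, z')) b1 h3 tendsto_const_nhds)
        (l1.congr' ?_)
      filter_upwards [(h z h1).gr, (h z' h2).gr, l1.abs.eventually
        (gt_mem_nhds (((h z' h2).lip y b2).trans_lt (by linarith : ‖y‖ / 2 < min (ρ z) (ρ z'))))]
        with i c1 c2 c3
      rw [lt_min_iff] at c3
      exact (c1.2 y _ z' b1 c3.1 h3).2.1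
        ((c2.2 y _ z' b2 c3.2 (by simpa using (h z' h2).r0)).2.2 rfl)
  have a2 : ∀ z, |z| ≤ T → w z =ᶠ[𝓝 0] w 0 := fun z hz =>
    isPreconnected_Icc.induction₂ (fun z z' => w z =ᶠ[𝓝 0] w z') (fun x hx => by
      filter_upwards [self_mem_nhdsWithin, mem_nhdsWithin_of_mem_nhds
        (ball_mem_nhds x (h x (abs_le.2 hx)).r0)] with y h1 h2
      exact a1 x y (abs_le.2 hx) (abs_le.2 h1) h2) (fun _ _ _ _ _ _ a b => a.trans b)
      (fun _ _ _ _ a => a.symm) (abs_le.1 hz) ⟨by linarith, hT.le⟩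
  let W : ℝ → I → E (k + 1) → ℝ := fun r i x =>
    Classical.epsilon fun s => |s| < r ∧ u i (p + L (ini x) + s • e) = x (last k)
  have key := (isCompact_Icc (a := -T) (b := T)).induction_on (p := fun J => ∀ᶠ r in 𝓝[>] (0 : ℝ),
    (∀ᶠ i in (𝒰 : Filter I), (∀ y s t, ‖y‖ < r → |s| < r → t ∈ J →
      (u i (p + L y + s • e) < t ↔ s < W r i (snc y t)) ∧
        (u i (p + L y + s • e) = t ↔ s = W r i (snc y t))) ∧
      ∀ x, ‖ini x‖ < r → x (last k) ∈ J → ContDiffAt ℝ ∞ (W r i) x) ∧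
    ∀ x, ‖ini x‖ < r → x (last k) ∈ J → ∀ j,
      Tendsto (fun q : I × E (k + 1) => iteratedFDeriv ℝ j (W r q.1) q.2) ((𝒰 : Filter I) ×ˢ 𝓝 x)
        (𝓝 (iteratedFDeriv ℝ j (fun z => w 0 (ini z)) x))) (by simp)
    (fun s t hst ht => ht.mono fun r hr => ⟨hr.1.mono fun i hi => ⟨fun y s t a b c =>
      hi.1 y s t a b (hst c), fun x a b => hi.2 x a (hst b)⟩, fun x a b => hr.2 x a (hst b)⟩)
    (fun s t hs ht => (hs.and ht).mono fun r hr => ⟨(hr.1.1.and hr.2.1).mono fun i hi =>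
      ⟨fun y s t a b c => c.elim (hi.1.1 y s t a b) (hi.2.1 y s t a b),
        fun x a b => b.elim (hi.1.2 x a) (hi.2.2 x a)⟩,
      fun x a b => b.elim (hr.1.2 x a) (hr.2.2 x a)⟩) fun z hz => by
    have hz := abs_le.2 hz
    have hl := h z hz
    have ρ0 := hl.r0
    obtain ⟨δ, δ0, hδ⟩ := Metric.eventually_nhds_iff_ball.1 (a2 z hz).eventuallyEq_nhds
    refine ⟨ball z (ρ z / 2), mem_nhdsWithin_of_mem_nhds (ball_mem_nhds z (half_pos ρ0)), ?_⟩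
    filter_upwards [Ioo_mem_nhdsGT (lt_min ρ0 δ0)] with r ⟨r0, hr⟩
    rw [lt_min_iff] at hr
    have b1 := ev_cpt 𝒰 ((isCompact_closedBall (0 : E k) r).prod (isCompact_closedBall z (ρ z / 2)))
      (P := fun i q => |v z i (snc q.1 q.2)| < r) fun y y₀ h1 h2 => by
        have c1 := mem_closedBall_zero_iff.1 h1.1
        exact (hl.lim (c1.trans_lt hr.1) (lt_of_le_of_lt h1.2 (half_lt_self ρ0)) h2).abs.eventually
          (gt_mem_nhds ((hl.lip _ (c1.trans_lt hr.1)).trans_lt (by linarith)))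
    have b2 : ∀ᶠ i in (𝒰 : Filter I), ∀ x, ‖ini x‖ < r → x (last k) ∈ ball z (ρ z / 2) →
        W r i x = v z i x := by
      filter_upwards [b1, hl.gr] with i c1 c2 x c3 c4
      have c5 := fun s hs => (c2.2 (ini x) s _ (c3.trans hr.1) hs
        (lt_trans c4 (half_lt_self ρ0))).2
      have c6 := c1 (ini x, x (last k)) ⟨mem_closedBall_zero_iff.2 c3.le, ball_subset_closedBall c4⟩
      have c7 := Classical.epsilon_spec (p := fun s => |s| < r ∧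
        u i (p + L (ini x) + s • e) = x (last k)) ⟨_, c6, (c5 _ (c6.trans hr.1)).2 rfl⟩
      exact ((c5 _ (c7.1.trans hr.1)).1 c7.2).trans (by rw [snc_ini])
    have b3 : ∀ x : E (k + 1), ‖ini x‖ < r → x (last k) ∈ ball z (ρ z / 2) →
        ∀ᶠ y in 𝓝 x, ‖ini y‖ < r ∧ y (last k) ∈ ball z (ρ z / 2) := fun x c1 c2 =>
      (sm_ini.continuous.norm.continuousAt.eventually (gt_mem_nhds c1)).and
        ((EuclideanSpace.proj (last k) : _ →L[ℝ] ℝ).continuous.continuousAt.eventually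
          (isOpen_ball.mem_nhds c2))
    have b4 : ∀ᶠ i in (𝒰 : Filter I), ∀ x, ‖ini x‖ < r → x (last k) ∈ ball z (ρ z / 2) →
        W r i =ᶠ[𝓝 x] v z i :=
      b2.mono fun i hi x c1 c2 => (b3 x c1 c2).mono fun y hy => hi y hy.1 hy.2
    refine ⟨?_, fun x c1 c2 j => ?_⟩
    · filter_upwards [b2, b4, hl.gr] with i c1 c2 c3
      refine ⟨fun y s t d1 d2 d3 => ?_,
        fun x d1 d2 => c3.1.contDiffAt.congr_of_eventuallyEq (c2 x d1 d2)⟩
      rw [c1 _ (by rwa [ini_snc]) (by rwa [snc_last])]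
      exact c3.2 y s t (d1.trans hr.1) (d2.trans hr.1) (lt_trans d3 (half_lt_self ρ0))
    · have e1 : (fun x => w z (ini x)) =ᶠ[𝓝 x] fun x => w 0 (ini x) :=
        sm_ini.continuous.continuousAt.eventually
          (hδ _ (mem_ball_zero_iff.2 (c1.trans hr.2)))
      rw [← (e1.iteratedFDeriv ℝ j).self_of_nhds]
      refine (hl.cv x (c1.trans hr.1) (lt_trans c2 (half_lt_self ρ0)) j).congr' ?_
      filter_upwards [tendsto_fst.eventually b4, tendsto_snd.eventually (b3 x c1 c2)] with q d1 d2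
      exact ((d1 _ d2.1 d2.2).iteratedFDeriv ℝ j).self_of_nhds.symm
  obtain ⟨r, ⟨k1, k2⟩, r0, hr⟩ := (key.and (Ioo_mem_nhdsGT h0.r0)).exists
  exact ⟨r, w 0, W r, hF, r0, h0.smw, fun y hy => h0.lip y (hy.trans hr),
    k1.mono fun i hi y s t a b c => hi.1 y s t a b (abs_le.1 c.le),
    k1.mono fun i hi x a b => hi.2 x a (abs_le.1 b.le),
    fun x a b j _ => k2 x a (abs_le.1 b.le) j, fun y hy => h0.mc y (hy.trans hr)⟩

/-- **RGC** -/
theorem rgc_of (hB : CBD) (hU : GUB) : RGC := fun k => by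
  obtain ⟨ε₀, ε0, c₀, c0, ε1, c1, hG⟩ := glim' white (k + 1)
  refine ⟨ε₀, ε0, ε1, fun I 𝒰 G φ H u c ε O S Λ T p h hp hN T0 TS hb => ?_⟩
  have gl : ∀ z, |z| ≤ T → ∃ r > (0 : ℝ), ball (snc p z) (4 * r) ⊆ Sl O S ∧
      ∀ x : I → E (k + 1 + 1), Tendsto x 𝒰 (𝓝 (snc p z)) →
        (∀ᶠ i in (𝒰 : Filter I), (cs G φ (u i)).Φ (x i) = 0) →
        ∃ n₀, n₀ ≠ 0 ∧ Tendsto (fun i => (cs G φ (u i)).n (x i)) 𝒰 (𝓝 n₀) ∧
          ∀ L, Fr (‖n₀‖⁻¹ • n₀) L → ∃ w w₀, Gl 𝒰 (fun i => cs G φ (u i)) (B1 G) (a1 G φ) (snc p z)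
            (‖n₀‖⁻¹ • n₀) L r w w₀ := fun z hz => by
    obtain ⟨R, R0, Λ', hR⟩ := hB _ I 𝒰 G φ H u c ε O S Λ ε₀ z p h hp (hz.trans_lt TS) hN ε1
    obtain ⟨δ, δ0, hδ⟩ := Metric.isOpen_iff.1 (isOpen_Sl (S := S) h.opn) (snc p z)
      ⟨by rwa [ini_snc], by rw [snc_last]; exact hz.trans_lt TS⟩
    obtain ⟨l, l1, l0, l2⟩ := ((P366L.not_bad (hb z hz)).and (Ioo_mem_nhdsGT (lt_min
      (lt_min (by positivity : 0 < R / 4) (by positivity : 0 < δ / 4))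
      (by positivity : 0 < ε₀ / (|Λ'| + 1))))).exists
    simp only [lt_min_iff] at l2
    have l3 : ball (snc p z) (4 * l) ⊆ Sl O S := (ball_subset_ball (by linarith [l2.1.2])).trans hδ
    refine ⟨c₀ * l, by positivity, (ball_subset_ball (by nlinarith)).trans l3, fun x a b =>
      hG I 𝒰 _ _ _ _ _ _ _ l x (cf_cv h) l0 l3 ?_ (mem_ball_self (by positivity)) a b⟩
    filter_upwards [hR, l1] with i d1 d2
    refine ⟨d1.mono (ball_subset_ball (by linarith [l2.1.1])) le_rfl ?_, d2⟩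
    have := (lt_div_iff₀ (by positivity)).1 l2.2
    rw [le_div_iff₀ l0]
    nlinarith [le_abs_self Λ']
  have lc : ∀ z, |z| ≤ T → ∀ n₀, Ap 𝒰 (fun i => cs G φ (u i)) (snc p z) n₀ →
      ‖-‖n₀‖⁻¹ • ini n₀‖ = 1 ∧ ∀ L, Fr (-‖n₀‖⁻¹ • ini n₀) L → ∃ r > (0 : ℝ),
        (∃ w v, Lc 𝒰 G φ H u p (-‖n₀‖⁻¹ • ini n₀) L w z r v) ∧ ∀ t, |t - z| < r → ∀ n₁,
          Ap 𝒰 (fun i => cs G φ (u i)) (snc p t) n₁ ↔ Ap 𝒰 (fun i => cs G φ (u i)) (snc p z) n₁ :=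
    fun z hz n₀ ha => by
      obtain ⟨r, r0, h1, h2⟩ := gl z hz
      obtain ⟨x, a, b, d⟩ := id ha
      obtain ⟨n₁, b1, b2, b3⟩ := h2 x a b
      obtain rfl := tendsto_nhds_unique d b2
      have hs : ∀ {e L}, Fr e L → cyl (snc p z) e L (2 * r) ⊆ Sl O S := fun hF =>
        (cyl_sub_ball hF).trans ((ball_subset_ball (by linarith)).trans h1)
      obtain ⟨L₀, hF⟩ := exists_fr (e := ‖n₀‖⁻¹ • n₀) (norm_smul_inv_norm b1)
      obtain ⟨w, w₀, hg⟩ := b3 L₀ hF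
      have m := self_mem_cyl (p := snc p z) (e := ‖n₀‖⁻¹ • n₀) (L := L₀) r0
      obtain ⟨b4, b5⟩ := (hg.cw.ap m).1 ha
      have b6 := vert_n h hg.cw (isOpen_cyl hF) ((cyl_mono (by linarith)).trans (hs hF)) m b4
      have b7 : ‖n₀‖⁻¹ • n₀ = -Lz (k + 1) (-‖n₀‖⁻¹ • ini n₀) := by
        rw [← b5] at b6
        rw [neg_smul, map_neg, neg_neg, map_smul]
        congr 1
        rw [← snc_ini n₀, b6, ini_snc]; rfl
      refine ⟨by rw [← (Lz _).norm_map, ← norm_neg, ← b7, hF.one], fun L hL => ?_⟩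
      rw [b7] at b3
      obtain ⟨w, w₀, hg⟩ := b3 _ (fr_Lh hL)
      exact ⟨r / 2, half_pos r0, lc_of hU h hL r0 hg (hs hg.fr)⟩
  have aw : ∀ z, |z| ≤ T → (¬∃ n₀, Ap 𝒰 (fun i => cs G φ (u i)) (snc p z) n₀) → ∃ r > (0 : ℝ),
      ∀ᶠ i in (𝒰 : Filter I), ∀ x ∈ ball (snc p z) r, (cs G φ (u i)).Φ x ≠ 0 := fun z hz h1 => by
    refine (app_or 𝒰 (G := fun i => {x | (cs G φ (u i)).Φ x = 0}) ((cf_cv h).ok.mono fun i hi =>
      isClosed_eq hi.smΦ.continuous continuous_const) _).resolve_right fun ⟨x, a, b⟩ => h1 ?_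
    obtain ⟨r, -, -, h2⟩ := gl z hz
    obtain ⟨n₀, -, d, -⟩ := h2 x a b
    exact ⟨n₀, x, a, b, d⟩
  by_cases h0 : ∃ z, |z| ≤ T ∧ ∃ n₀, Ap 𝒰 (fun i => cs G φ (u i)) (snc p z) n₀
  · obtain ⟨z₀, hz, n₀, ha⟩ := h0
    have all : ∀ z, |z| ≤ T → Ap 𝒰 (fun i => cs G φ (u i)) (snc p z) n₀ := fun z h1 =>
      (isPreconnected_Icc.induction₂ (fun s t => ∀ n, Ap 𝒰 (fun i => cs G φ (u i)) (snc p t) n ↔
        Ap 𝒰 (fun i => cs G φ (u i)) (snc p s) n) (fun s h2 => mem_nhdsWithin_of_mem_nhds (by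
          by_cases h3 : ∃ n₁, Ap 𝒰 (fun i => cs G φ (u i)) (snc p s) n₁
          · obtain ⟨n₁, h3⟩ := h3
            obtain ⟨b1, b2⟩ := lc s (abs_le.2 h2) n₁ h3
            obtain ⟨L, hL⟩ := exists_fr b1
            obtain ⟨r, r0, -, b3⟩ := b2 L hL
            exact mem_of_superset (ball_mem_nhds s r0) b3
          · obtain ⟨r, r0, b1⟩ := aw s (abs_le.2 h2) h3
            filter_upwards [(cont_snc.comp (continuous_const.prodMk continuous_id)).continuousAt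
              (x := s) (ball_mem_nhds _ r0)] with t ht n₁
            refine iff_of_false (fun ⟨x, a, b, _⟩ => ?_) fun h4 => h3 ⟨_, h4⟩
            obtain ⟨i, d1, d2, d3⟩ := (b1.and (b.and (a.eventually (isOpen_ball.mem_nhds ht)))).exists
            exact d1 _ d3 d2)) (fun _ _ _ _ _ _ a b n => (b n).trans (a n))
        (fun _ _ _ _ a n => (a n).symm) (abs_le.1 hz) (abs_le.1 h1) n₀).2 ha
    obtain ⟨L, hL⟩ := exists_fr (lc z₀ hz n₀ ha).1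
    refine .inr ⟨_, L, rc_of hL T0 fun z h1 => ?_⟩
    obtain ⟨r, -, ⟨w, v, h2⟩, -⟩ := (lc z h1 n₀ (all z h1)).2 L hL
    exact ⟨w, r, v, h2⟩
  · have key := (isCompact_Icc (a := -T) (b := T)).induction_on
      (p := fun J => ∀ᶠ q : I × E (k + 1) in (𝒰 : Filter I) ×ˢ 𝓝 p, ∀ t ∈ J, u q.1 q.2 ≠ t)
      (by simp)
      (fun s t hst ht => ht.mono fun q hq x hx => hq x (hst hx))
      (fun s t hs ht => (hs.and ht).mono fun q hq x hx => hx.elim (hq.1 x) (hq.2 x)) fun z hz => by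
      obtain ⟨r, r0, b1⟩ := aw z (abs_le.2 hz) fun h1 => h0 ⟨z, abs_le.2 hz, h1⟩
      obtain ⟨V, hV, J, hJ, b2⟩ := mem_nhds_prod_iff.1
        (cont_snc.continuousAt (x := (p, z)) (ball_mem_nhds _ r0))
      refine ⟨J, mem_nhdsWithin_of_mem_nhds hJ, ev_of_ball (P := fun i y => ∀ t ∈ J, u i y ≠ t) hV
        (b1.mono fun i hi y hy t ht h1 => hi _ (b2 (mk_mem_prod hy ht)) ?_)⟩
      rw [cs_Φ, ini_snc, snc_last, h1, sub_self]
    obtain ⟨r, r0, hr⟩ := ev_ball (P := fun i y => ∀ t ∈ Icc (-T) T, u i y ≠ t) key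
    exact .inl ⟨_, ball_mem_nhds p r0, hr.mono fun i hi x hx =>
      not_le.1 fun h1 => hi x hx _ (abs_le.1 h1) rfl⟩

end Vale.Agent.P366R
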